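import Vale.Agent.P202.Bdl.B23
import Vale.Agent.P202.Bdl.B24

/-!
P202, the sharper inequality: the statement at finite level, and the complete cases of residue
characteristic `p`.
-/

set_option linter.unusedSectionVars false

namespace Vale.Agent.N202

open IsLocalRing Filter Topology Vale.Agent.P202 Vale.Agent.P202.CZ

universe u

/-- The inequality at finite level, for all ideals with `d` generators. -/
def Core (R S : Type u) [CommRing R] [IsLocalRing R] [CommRing S] [IsLocalRing S] [Algebra R S]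
    (d : ℕ) : Prop :=
  ∀ (y : Fin d → S), (∀ i, y i ∈ maximalIdeal S) → ell (Ideal.span (Set.range y)) ≠ ⊤ →
    ∀ (eR t : ℕ), Tendsto (hsSeq R d) atTop (𝓝 (eR : ℝ)) →
      ell ((maximalIdeal R).map (algebraMap R S) ⊔ Ideal.span (Set.range y)) = t →
      ∀ j, ((t * eR * tc d j : ℕ) : ℕ∞) ≤ ell (Ideal.span (Set.range y) ^ j)

theorem ell_pow_ne_top {A : Type*} [CommRing A] [IsLocalRing A] [IsNoetherianRing A]
    {I : Ideal A} (h : ell I ≠ ⊤) (n : ℕ) : ell (I ^ n) ≠ ⊤ := by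
  obtain ⟨s, hs⟩ := exists_pow_le_of_ell_ne_top h
  refine ell_ne_top_of_pow_le (s := s * n) ?_
  rw [pow_mul]
  exact Ideal.pow_right_mono hs n

theorem tendsto_of_red {A : Type*} [CommRing A] [IsLocalRing A] [IsNoetherianRing A] {d : ℕ}
    (hd : 0 < d) (x : Fin d → A) (J : Ideal A) (hle : Ideal.span (Set.range x) ≤ J) (c : ℕ)
    (hc : ∀ n, J ^ (n + c) ≤ Ideal.span (Set.range x) ^ n)
    (hxl : ell (Ideal.span (Set.range x)) ≠ ⊤) (E : ℕ) (hE : emin x = E) :
    Tendsto (fun N : ℕ => (d.factorial : ℝ) * (((ell (J ^ N)).toNat : ℕ) : ℝ) / (N : ℝ) ^ d)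
      atTop (𝓝 (E : ℝ)) := by
  obtain ⟨B, hB⟩ := ENat.ne_top_iff_exists.mp (errB_ne_top hxl)
  have hJ : ell J ≠ ⊤ := ne_top_of_le_ne_top hxl (ell_mono hle)
  refine tendsto_of_bounds (B := B) (c := c) hd (fun N => (ell (J ^ N)).toNat) ?_ ?_
  · intro N
    have h1 := (emin_mul_card_le x N).trans (ell_mono (hc N))
    obtain ⟨b, hb⟩ := ENat.ne_top_iff_exists.mp (ell_pow_ne_top hJ (N + c))
    rw [hE, ← hb] at h1
    simp only [← hb, ENat.toNat_natCast]
    exact_mod_cast h1
  · intro N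
    have h1 := (ell_mono (Ideal.pow_right_mono hle N)).trans (ell_pow_le x N)
    rw [hE, ← hB, Fintype.card_fin] at h1
    have h2 : ell (J ^ N) ≤ (((tri (Fin d) N).card * E + B * N ^ (d - 1) : ℕ) : ℕ∞) := by
      exact_mod_cast h1
    exact ENat.toNat_le_of_le_natCast h2

theorem level_of_le_emin {A : Type*} [CommRing A] {d : ℕ} (y : Fin d → A) (a : ℕ)
    (h : (a : ℕ∞) ≤ emin y) (j : ℕ) :
    ((a * tc d j : ℕ) : ℕ∞) ≤ ell (Ideal.span (Set.range y) ^ j) := by
  refine le_trans ?_ (emin_mul_card_le y j)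
  push_cast
  exact mul_le_mul_left h _

/-- Complete rings of characteristic `p` with infinite residue field. -/
theorem core_charp (p : ℕ) [Fact p.Prime] {R S : Type u} [CommRing R] [IsLocalRing R]
    [IsNoetherianRing R] [IsAdicComplete (maximalIdeal R) R] [Infinite (ResidueField R)]
    [CommRing S] [IsLocalRing S] [IsNoetherianRing S] [IsAdicComplete (maximalIdeal S) S]
    [Algebra R S] [IsLocalHom (algebraMap R S)] [Module.Flat R S] [_root_.CharP R p]
    {r : ℕ} (hR : ringKrullDim R = (r + 1 : ℕ)) (hS : ringKrullDim S = (r + 1 : ℕ)) :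
    Core R S (r + 1) := by
  intro y hy hyl eR t heR ht
  have c2 : _root_.CharP (ResidueField R) p := CharP.charP_of_algebra p Fact.out (R := R)
  obtain ⟨x, hx, r0, hr0⟩ := exists_reduction_max (A := R) (r + 1) hR
  have hxle : Ideal.span (Set.range x) ≤ maximalIdeal R := by
    rw [Ideal.span_le]
    rintro _ ⟨i, rfl⟩
    exact hx i
  have hred : IsRed (Ideal.span (Set.range x)) (maximalIdeal R) := ⟨hxle, r0, hr0⟩
  obtain ⟨c0, hc0⟩ := hred.exists_pow_le
  have hxl : ell (Ideal.span (Set.range x)) ≠ ⊤ := by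
    have h1 := hc0 1
    rw [pow_one] at h1
    exact ell_ne_top_of_pow_le h1
  obtain ⟨lam, hlam⟩ := ENat.ne_top_iff_exists.mp (emin_ne_top hxl)
  have hA := CharP.ArbK.theoremC p (A := R) (S := S) hR hS x hx c0 hc0 y hy hyl t lam ht hlam.symm
  have hlim := tendsto_of_red (Nat.succ_pos r) x (maximalIdeal R) hxle c0 hc0 hxl lam hlam.symm
  have he : (eR : ℝ) = lam := tendsto_nhds_unique heR hlim
  have he' : eR = lam := by exact_mod_cast he
  refine level_of_le_emin y _ ?_
  refine le_trans ?_ (CharP.kchi_le_emin (Nat.succ_pos r) y hy hyl)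
  have h1 : t * eR ≤ (CharP.kchi y S).toNat := by
    rw [he']
    have h2 : ((t * lam : ℕ) : ℤ) ≤ CharP.kchi y S := by
      push_cast
      exact hA
    omega
  exact_mod_cast h1

/-- Complete domains of mixed characteristic with infinite residue field. -/
theorem core_mixed (p : ℕ) [Fact p.Prime] {A S : Type u}
    [CommRing A] [IsDomain A] [IsLocalRing A] [IsNoetherianRing A] [CharZero A]
    [_root_.CharP (ResidueField A) p] [IsAdicComplete (maximalIdeal A) A]
    [Infinite (ResidueField A)]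
    [CommRing S] [IsLocalRing S] [IsNoetherianRing S] [IsAdicComplete (maximalIdeal S) S]
    [Algebra A S] [IsLocalHom (algebraMap A S)] [Module.Flat A S]
    {r : ℕ} (hA : ringKrullDim A = (r + 1 : ℕ)) (hS : ringKrullDim S = (r + 1 : ℕ)) :
    Core A S (r + 1) := by
  intro y hy hyl eA t0 heA ht0
  obtain ⟨E, hE⟩ := ENat.ne_top_iff_exists.mp (emin_ne_top hyl)
  obtain ⟨B, hB⟩ := ENat.ne_top_iff_exists.mp (errB_ne_top hyl)
  obtain ⟨C1, C2, hC⟩ := Mix.theoremM p (A := A) (S := S) hA hS y hy hyl t0 ht0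
  have hyj : ∀ j : ℕ, 1 ≤ j →
      ((Module.length S (S ⧸ Ideal.span (Set.range y) ^ j)).toNat : ℝ) ≤
        (((r + j).choose (r + 1) : ℕ) : ℝ) * E + B * (j : ℝ) ^ r := by
    intro j hj
    have h1 := ell_pow_le y j
    rw [← hE, ← hB, Fintype.card_fin, Nat.add_sub_cancel, Mix.card_tri_eq hj] at h1
    have h2 : ell (Ideal.span (Set.range y) ^ j) ≤
        (((r + j).choose (r + 1) * E + B * j ^ r : ℕ) : ℕ∞) := by
      exact_mod_cast h1
    have h3 := ENat.toNat_le_of_le_natCast h2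
    exact_mod_cast h3
  have hlim : ∀ L : ℕ, 1 ≤ L →
      (t0 : ℝ) * (((Module.length A (A ⧸ maximalIdeal A ^ L)).toNat : ℝ) -
        C2 * (L : ℝ) ^ r) ≤ (((r + L).choose (r + 1) : ℕ) : ℝ) * E := by
    intro L hL
    have h1 : Tendsto (fun j : ℕ => (((r + L).choose (r + 1) : ℕ) : ℝ) * E +
        (((r + L).choose (r + 1) : ℕ) : ℝ) * (B + |C1|) * ((r + 1).factorial *
          ((j : ℝ) ^ r / (j : ℝ) ^ (r + 1)))) atTop
        (𝓝 ((((r + L).choose (r + 1) : ℕ) : ℝ) * E +
        (((r + L).choose (r + 1) : ℕ) : ℝ) * (B + |C1|) * ((r + 1).factorial * 0))) := by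
      refine tendsto_const_nhds.add (Tendsto.const_mul _ (Tendsto.const_mul _ ?_))
      have h2 : Tendsto (fun j : ℕ => 1 / (j : ℝ)) atTop (𝓝 0) :=
        tendsto_one_div_atTop_nhds_zero_nat
      refine h2.congr' ?_
      filter_upwards [eventually_gt_atTop 0] with j hj
      have : (j : ℝ) ≠ 0 := by positivity
      rw [pow_succ]
      field_simp
    rw [mul_zero, mul_zero, add_zero] at h1
    refine ge_of_tendsto h1 ?_
    filter_upwards [eventually_gt_atTop 0] with j hj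
    have h2 := hC L j hL hj
    have h3 := hyj j hj
    set a : ℝ := (((r + j).choose (r + 1) : ℕ) : ℝ) with ha
    set Y : ℝ := (((r + L).choose (r + 1) : ℕ) : ℝ) with hY
    have hY0 : 0 ≤ Y := Nat.cast_nonneg _
    have hj0 : (0 : ℝ) < (j : ℝ) ^ (r + 1) := by positivity
    have hfa : (j : ℝ) ^ (r + 1) ≤ ((r + 1).factorial : ℝ) * a := by
      have h4 := pow_le_factorial_mul_card_tri (σ := Fin (r + 1)) j hj
      rw [Fintype.card_fin, Mix.card_tri_eq hj] at h4
      rw [ha]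
      exact_mod_cast h4
    have hf0 : (0 : ℝ) < ((r + 1).factorial : ℝ) := by positivity
    have ha0 : 0 < a := by
      by_contra h5
      have h6 : ((r + 1).factorial : ℝ) * a ≤ 0 :=
        mul_nonpos_of_nonneg_of_nonpos hf0.le (not_lt.mp h5)
      linarith
    have h7 : C1 * (j : ℝ) ^ r ≤ |C1| * (j : ℝ) ^ r :=
      mul_le_mul_of_nonneg_right (le_abs_self C1) (by positivity)
    have h8 : Y * (((Module.length S (S ⧸ Ideal.span (Set.range y) ^ j)).toNat : ℝ) +
        C1 * (j : ℝ) ^ r) ≤ Y * (a * E + (B + |C1|) * (j : ℝ) ^ r) := by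
      refine mul_le_mul_of_nonneg_left ?_ hY0
      linarith
    have h9 : (j : ℝ) ^ r ≤ a * ((r + 1).factorial * ((j : ℝ) ^ r / (j : ℝ) ^ (r + 1))) := by
      have h10 : (j : ℝ) ^ r = (j : ℝ) ^ (r + 1) * ((j : ℝ) ^ r / (j : ℝ) ^ (r + 1)) := by
        field_simp
      calc (j : ℝ) ^ r = (j : ℝ) ^ (r + 1) * ((j : ℝ) ^ r / (j : ℝ) ^ (r + 1)) := h10
        _ ≤ (((r + 1).factorial : ℝ) * a) * ((j : ℝ) ^ r / (j : ℝ) ^ (r + 1)) :=
            mul_le_mul_of_nonneg_right hfa (by positivity)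
        _ = _ := by ring
    have h11 : (0 : ℝ) ≤ Y * (B + |C1|) :=
      mul_nonneg hY0 (add_nonneg (Nat.cast_nonneg _) (abs_nonneg _))
    have h12 : (t0 : ℝ) * (((Module.length A (A ⧸ maximalIdeal A ^ L)).toNat : ℝ) -
        C2 * (L : ℝ) ^ r) * a ≤ (Y * E + Y * (B + |C1|) * ((r + 1).factorial *
          ((j : ℝ) ^ r / (j : ℝ) ^ (r + 1)))) * a := by
      refine (h2.trans h8).trans ?_
      have h13 := mul_le_mul_of_nonneg_left h9 h11
      calc Y * (a * E + (B + |C1|) * (j : ℝ) ^ r) =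
          Y * E * a + Y * (B + |C1|) * (j : ℝ) ^ r := by ring
        _ ≤ Y * E * a + Y * (B + |C1|) *
            (a * ((r + 1).factorial * ((j : ℝ) ^ r / (j : ℝ) ^ (r + 1)))) := by linarith
        _ = _ := by ring
    exact le_of_mul_le_mul_right h12 ha0
  -- the limit `L → ∞`
  have key : (t0 : ℝ) * eA ≤ E := by
    have h1 : Tendsto (fun L : ℕ => (t0 : ℝ) * hsSeq A (r + 1) L -
        (t0 : ℝ) * C2 * (r + 1).factorial * (1 / (L : ℝ))) atTop
        (𝓝 ((t0 : ℝ) * eA - (t0 : ℝ) * C2 * (r + 1).factorial * 0)) :=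
      (heA.const_mul _).sub (tendsto_one_div_atTop_nhds_zero_nat.const_mul _)
    rw [mul_zero, sub_zero] at h1
    have h2 := (tendsto_shift_pow_ratio (r + 1) (r + 1)).const_mul (E : ℝ)
    rw [mul_one] at h2
    refine le_of_tendsto_of_tendsto h1 h2 ?_
    filter_upwards [eventually_gt_atTop 0] with L hL
    have hL0 : (0 : ℝ) < L := by exact_mod_cast hL
    have h3 := hlim L hL
    have h4 := factorial_mul_card_tri_le (σ := Fin (r + 1)) L
    rw [Fintype.card_fin, Mix.card_tri_eq hL] at h4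
    have h5 : ((r + 1).factorial : ℝ) * (((r + L).choose (r + 1) : ℕ) : ℝ) ≤
        ((L + (r + 1) : ℕ) : ℝ) ^ (r + 1) := by exact_mod_cast h4
    have h6 : (t0 : ℝ) * hsSeq A (r + 1) L - (t0 : ℝ) * C2 * (r + 1).factorial * (1 / (L : ℝ)) =
        ((r + 1).factorial : ℝ) * ((t0 : ℝ) *
          (((Module.length A (A ⧸ maximalIdeal A ^ L)).toNat : ℝ) - C2 * (L : ℝ) ^ r)) /
          (L : ℝ) ^ (r + 1) := by
      unfold hsSeq
      rw [pow_succ]
      field_simp
    rw [h6, mul_div_assoc']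
    refine (div_le_div_iff_of_pos_right (by positivity)).mpr ?_
    have hE0 : (0 : ℝ) ≤ E := Nat.cast_nonneg _
    calc ((r + 1).factorial : ℝ) * ((t0 : ℝ) *
          (((Module.length A (A ⧸ maximalIdeal A ^ L)).toNat : ℝ) - C2 * (L : ℝ) ^ r)) ≤
        ((r + 1).factorial : ℝ) * ((((r + L).choose (r + 1) : ℕ) : ℝ) * E) :=
          mul_le_mul_of_nonneg_left h3 (by positivity)
      _ = (E : ℝ) * (((r + 1).factorial : ℝ) * (((r + L).choose (r + 1) : ℕ) : ℝ)) := by ring
      _ ≤ _ := mul_le_mul_of_nonneg_left h5 hE0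
  refine level_of_le_emin y _ ?_
  rw [← hE]
  have h1 : t0 * eA ≤ E := by exact_mod_cast key
  exact_mod_cast h1

end Vale.Agent.N202
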