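import Vale.Agent.N202.Dom

/-!
P202, the sharper inequality: the colength of `J S + (y)` in a free extension is the corank of a
matrix, and the corank does not drop under specialization.
-/

set_option linter.unusedSectionVars false

namespace Vale.Agent.N202

open IsLocalRing Filter Topology TensorProduct Vale.Agent.P202 Vale.Agent.P202.CZ

universe u

/-- the corank of the multiplications by the `y i` on the closed fibre. -/
noncomputable def cork {K E S : Type u} [Field K] [CommRing E] [CommRing S] [Algebra E S]
    {t d : ℕ} (v : Module.Basis (Fin t) E S) (ε : E →+* K) (y : Fin d → S) : ℕ :=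
  Module.finrank K ((Fin t → K) ⧸ Submodule.span K
    (Set.range fun p : Fin d × Fin t => fun l => ε (v.repr (y p.1 * v p.2) l)))

theorem cork_congr {K E S E' S' : Type u} [Field K] [CommRing E] [CommRing S] [Algebra E S]
    [CommRing E'] [CommRing S'] [Algebra E' S'] {t d : ℕ}
    (v : Module.Basis (Fin t) E S) (ε : E →+* K) (y : Fin d → S)
    (v' : Module.Basis (Fin t) E' S') (ε' : E' →+* K) (y' : Fin d → S')
    (ρ : E →+* E') (τ : S →+* S') (hc : ∀ z, τ (algebraMap E S z) = algebraMap E' S' (ρ z))
    (hv : ∀ i, τ (v i) = v' i) (hy : ∀ i, τ (y i) = y' i) (hε : ∀ z, ε' (ρ z) = ε z) :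
    cork v ε y = cork v' ε' y' := by
  have h1 : ∀ (z : S) (l : Fin t), v'.repr (τ z) l = ρ (v.repr z l) := by
    intro z l
    have h2 : τ z = ∑ i, ρ (v.repr z i) • v' i := by
      conv_lhs => rw [← v.sum_repr z]
      rw [map_sum]
      refine Finset.sum_congr rfl fun i _ => ?_
      rw [Algebra.smul_def, Algebra.smul_def, map_mul, hc, hv]
    rw [h2, v'.repr_sum_self]
  have h3 : (fun p : Fin d × Fin t => fun l => ε (v.repr (y p.1 * v p.2) l)) =
      fun p : Fin d × Fin t => fun l => ε' (v'.repr (y' p.1 * v' p.2) l) := by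
    funext p l
    rw [← hy, ← hv, ← map_mul, h1, hε]
  unfold cork
  rw [h3]

theorem cork_eq_ell {K E S : Type u} [Field K] [CommRing E] [CommRing S] [IsLocalRing S]
    [Algebra E S] {t d : ℕ} (v : Module.Basis (Fin t) E S) (ε : E →+* K) (y : Fin d → S)
    (σ : K →+* E) (hσ : ∀ a, ε (σ a) = a) (J : Ideal E) (hJ : ∀ z, z ∈ J ↔ ε z = 0)
    (hK : ∀ z : S, ∃ a : K, z - algebraMap E S (σ a) ∈ maximalIdeal S) :
    (cork v ε y : ℕ∞) = ell (J.map (algebraMap E S) ⊔ Ideal.span (Set.range y)) := by
  classical
  let _ : Algebra K S := ((algebraMap E S).comp σ).toAlgebra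
  have hsm : ∀ (a : K) (z : S), a • z = σ a • z := by
    intro a z
    rw [Algebra.smul_def, Algebra.smul_def]
    rfl
  set I := J.map (algebraMap E S) ⊔ Ideal.span (Set.range y) with hI
  set W := Submodule.span K
    (Set.range fun p : Fin d × Fin t => fun l => ε (v.repr (y p.1 * v p.2) l)) with hW
  let lam : S →ₗ[K] (Fin t → K) :=
    { toFun := fun z l => ε (v.repr z l)
      map_add' := fun z w => by
        funext l
        simp only [map_add, Finsupp.add_apply, Pi.add_apply]
      map_smul' := fun a z => by
        funext l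
        simp only [RingHom.id_apply, Pi.smul_apply, smul_eq_mul]
        rw [hsm, map_smul, Finsupp.smul_apply, smul_eq_mul, map_mul, hσ] }
  have hlam : ∀ z l, lam z l = ε (v.repr z l) := fun _ _ => rfl
  have hlamE : ∀ (c : E) (z : S), lam (c • z) = ε c • lam z := by
    intro c z
    funext l
    rw [hlam, map_smul, Finsupp.smul_apply, smul_eq_mul, map_mul, Pi.smul_apply, hlam,
      smul_eq_mul]
  let mu : (Fin t → K) →ₗ[K] S := Fintype.linearCombination K fun l => v l
  have hmu : ∀ f, mu f = ∑ l, σ (f l) • v l := by
    intro f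
    rw [Fintype.linearCombination_apply]
    exact Finset.sum_congr rfl fun l _ => hsm _ _
  have hlm : ∀ f, lam (mu f) = f := by
    intro f
    funext l
    rw [hlam, hmu, v.repr_sum_self, hσ]
  have hml : ∀ z, z - mu (lam z) ∈ J.map (algebraMap E S) := by
    intro z
    have h1 : z - mu (lam z) = ∑ l, algebraMap E S (v.repr z l - σ (ε (v.repr z l))) * v l := by
      conv_lhs => rw [hmu]
      conv_lhs => enter [1]; rw [← v.sum_repr z]
      rw [← Finset.sum_sub_distrib]
      refine Finset.sum_congr rfl fun l _ => ?_
      rw [hlam, ← sub_smul, Algebra.smul_def]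
    rw [h1]
    refine Ideal.sum_mem _ fun l _ => Ideal.mul_mem_right _ _ (Ideal.mem_map_of_mem _ ?_)
    rw [hJ, map_sub, hσ, sub_self]
  let Λ : S →ₗ[K] ((Fin t → K) ⧸ W) := W.mkQ.comp lam
  have hsurj : Function.Surjective Λ :=
    (Submodule.mkQ_surjective W).comp fun f => ⟨mu f, hlm f⟩
  have hker : LinearMap.ker Λ = I.restrictScalars K := by
    ext z
    rw [LinearMap.mem_ker, Submodule.restrictScalars_mem]
    change W.mkQ (lam z) = 0 ↔ _
    rw [Submodule.mkQ_apply, Submodule.Quotient.mk_eq_zero]
    constructor
    · intro hz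
      have h1 : ∀ f ∈ W, mu f ∈ I := by
        intro f hf
        induction hf using Submodule.span_induction with
        | mem f hf =>
          obtain ⟨p, rfl⟩ := hf
          have h2 := hml (y p.1 * v p.2)
          have h3 : y p.1 * v p.2 ∈ I :=
            Ideal.mem_sup_right (Ideal.mul_mem_right _ _ (Ideal.subset_span ⟨p.1, rfl⟩))
          have h4 := I.sub_mem h3 (Ideal.mem_sup_left h2)
          rw [sub_sub_cancel] at h4
          exact h4
        | zero => rw [map_zero]; exact I.zero_mem
        | add f g _ _ hf hg => rw [map_add]; exact I.add_mem hf hg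
        | smul a f _ hf =>
          rw [map_smul, Algebra.smul_def]
          exact I.mul_mem_left _ hf
      have h2 := I.add_mem (Ideal.mem_sup_left (hml z)) (h1 _ hz)
      rwa [sub_add_cancel] at h2
    · intro hz
      have h1 : ∀ z ∈ I, ∀ w : S, lam (w * z) ∈ W := by
        intro z hz
        rw [hI, Ideal.map, ← Ideal.span_union] at hz
        induction hz using Submodule.span_induction with
        | mem z hz =>
          intro w
          rcases hz with ⟨c, hc, rfl⟩ | ⟨i, rfl⟩
          · rw [mul_comm, ← Algebra.smul_def, hlamE, (hJ c).mp hc, zero_smul]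
            exact W.zero_mem
          · have h2 : w * y i = ∑ j, v.repr w j • (y i * v j) := by
              conv_lhs => rw [← v.sum_repr w]
              rw [Finset.sum_mul]
              refine Finset.sum_congr rfl fun j _ => ?_
              rw [smul_mul_assoc, mul_comm]
            rw [h2, map_sum]
            refine W.sum_mem fun j _ => ?_
            rw [hlamE]
            exact W.smul_mem _ (Submodule.subset_span ⟨(i, j), rfl⟩)
        | zero => intro w; rw [mul_zero, map_zero]; exact W.zero_mem
        | add a b _ _ ha hb => intro w; rw [mul_add, map_add]; exact W.add_mem (ha w) (hb w)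
        | smul a z _ hz =>
          intro w
          rw [smul_eq_mul, ← mul_assoc]
          exact hz _
      have h2 := h1 z hz 1
      rwa [one_mul] at h2
  have e1 : (S ⧸ I) ≃ₗ[K] ((Fin t → K) ⧸ W) :=
    ((Submodule.Quotient.restrictScalarsEquiv K I).symm.trans
      (Submodule.quotEquivOfEq _ _ hker.symm)).trans (Λ.quotKerEquivOfSurjective hsurj)
  have h1 : Module.length K (S ⧸ I) = (cork v ε y : ℕ∞) := by
    rw [e1.length_eq, Module.length_eq_finrank]
    rfl
  rw [← h1]
  apply le_antisymm
  · refine length_le_of_residue (A := K) (R := S) hK ?_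
    rw [Ideal.map_le_iff_le_comap]
    intro a ha
    have : a = 0 := by
      by_contra h0
      exact (mem_maximalIdeal a).mp ha (IsUnit.mk0 a h0)
    rw [this]
    exact Ideal.zero_mem _
  · have h2 := Submodule.length_le_length_restrictScalars (R := S) (M := S ⧸ I) K ⊤
    rw [Submodule.restrictScalars_top, Submodule.topEquiv.length_eq,
      Submodule.topEquiv.length_eq] at h2
    exact h2

/-- The corank of a matrix does not drop under specialization. -/
theorem corank_specialize {K k : Type u} [Field K] [Field k] (D : Subring K) (π : D →+* k)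
    {ι : Type} {t : ℕ} (A : ι → Fin t → D) :
    Module.finrank K ((Fin t → K) ⧸ Submodule.span K (Set.range fun p l => (A p l : K))) ≤
      Module.finrank k ((Fin t → k) ⧸ Submodule.span k (Set.range fun p l => π (A p l))) := by
  classical
  set W := Submodule.span K (Set.range fun p l => (A p l : K)) with hW
  set V := Submodule.span k (Set.range fun p l => π (A p l)) with hV
  set U := Submodule.span D (Set.range A) with hU
  let _ : Algebra D k := π.toAlgebra
  -- a basis of the quotient over `K` among the coordinate vectors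
  obtain ⟨κ, a, ha, hsp, hli⟩ := exists_linearIndependent' K
    (fun l : Fin t => W.mkQ (Pi.single l (1 : K)))
  have hfin : Finite κ := Finite.of_injective a ha
  have := Fintype.ofFinite κ
  have htop : Submodule.span K (Set.range fun l : Fin t => W.mkQ (Pi.single l (1 : K))) = ⊤ := by
    have h1 : (Set.range fun l : Fin t => W.mkQ (Pi.single l (1 : K))) =
        W.mkQ '' Set.range (Pi.basisFun K (Fin t)) := by
      rw [← Set.range_comp]
      congr 1
      funext l
      rw [Function.comp_apply, Pi.basisFun_apply]
    rw [h1, ← Submodule.map_span, (Pi.basisFun K (Fin t)).span_eq, Submodule.map_top,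
      Submodule.range_mkQ]
  have hcard : Module.finrank K ((Fin t → K) ⧸ W) = Fintype.card κ := by
    rw [← finrank_top, ← htop, ← hsp, finrank_span_eq_card hli]
  let eq := (Fintype.equivFin κ).symm
  -- the same vectors are independent over `D`
  let e : Fin (Fintype.card κ) → ((Fin t → D) ⧸ U) := fun i => U.mkQ (Pi.single (a (eq i)) 1)
  let c : (Fin t → D) →ₗ[D] (Fin t → K) :=
    { toFun := fun f l => (f l : K)
      map_add' := fun _ _ => rfl
      map_smul' := fun _ _ => rfl }
  have hcU : U ≤ (W.restrictScalars D).comap c := by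
    rw [hU, Submodule.span_le]
    rintro _ ⟨p, rfl⟩
    exact Submodule.subset_span (R := K) ⟨p, rfl⟩
  have he : LinearIndependent D e := by
    rw [Fintype.linearIndependent_iff]
    intro g hg i
    have h1 : (∑ i, g i • (Pi.single (a (eq i)) 1 : Fin t → D)) ∈ U := by
      rw [← Submodule.Quotient.mk_eq_zero, ← Submodule.mkQ_apply, map_sum]
      rw [← hg]
      exact Finset.sum_congr rfl fun i _ => map_smul _ _ _
    have h2 : c (∑ i, g i • (Pi.single (a (eq i)) 1 : Fin t → D)) ∈ W := hcU h1
    have h3 : c (∑ i, g i • (Pi.single (a (eq i)) 1 : Fin t → D)) =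
        ∑ i, (g i : K) • (Pi.single (a (eq i)) 1 : Fin t → K) := by
      rw [map_sum]
      refine Finset.sum_congr rfl fun i _ => ?_
      funext l
      change ((g i * (Pi.single (a (eq i)) 1 : Fin t → D) l : D) : K) =
        (g i : K) * (Pi.single (a (eq i)) 1 : Fin t → K) l
      by_cases h : l = a (eq i)
      · rw [h, Pi.single_eq_same, Pi.single_eq_same, mul_one, mul_one]
      · rw [Pi.single_eq_of_ne h, Pi.single_eq_of_ne h, mul_zero, mul_zero]
        rfl
    rw [h3, ← Submodule.Quotient.mk_eq_zero, ← Submodule.mkQ_apply, map_sum] at h2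
    have h4 := (Fintype.linearIndependent_iff.mp (hli.comp eq eq.injective))
      (fun i => (g i : K)) (by
        rw [← h2]
        exact Finset.sum_congr rfl fun i _ => (map_smul _ _ _).symm) i
    exact Subtype.ext h4
  obtain ⟨e', he'⟩ := rank_base_change (L := k) e he
  -- the surjection onto the base change
  let s0 : (Fin t → k) →ₗ[k] (k ⊗[D] ((Fin t → D) ⧸ U)) :=
    Fintype.linearCombination k fun l => (1 : k) ⊗ₜ[D] U.mkQ (Pi.single l 1)
  have hs0 : ∀ f : Fin t → D, s0 (fun l => π (f l)) = (1 : k) ⊗ₜ[D] U.mkQ f := by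
    intro f
    rw [Fintype.linearCombination_apply]
    conv_rhs => rw [← Finset.univ_sum_single f, map_sum, TensorProduct.tmul_sum]
    refine Finset.sum_congr rfl fun l _ => ?_
    have h1 : (Pi.single l (f l) : Fin t → D) = f l • (Pi.single l 1 : Fin t → D) := by
      rw [← Pi.single_smul, smul_eq_mul, mul_one]
    rw [h1, map_smul, TensorProduct.tmul_smul]
    exact (algebraMap_smul k (f l) _)
  have hV0 : V ≤ LinearMap.ker s0 := by
    rw [hV, Submodule.span_le]
    rintro _ ⟨p, rfl⟩
    change s0 (fun l => π (A p l)) = 0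
    rw [hs0, Submodule.mkQ_apply,
      (Submodule.Quotient.mk_eq_zero U).mpr (Submodule.subset_span ⟨p, rfl⟩),
      TensorProduct.tmul_zero]
  have hsurj : Function.Surjective (V.liftQ s0 hV0) := by
    intro z
    induction z using TensorProduct.induction_on with
    | zero => exact ⟨0, map_zero _⟩
    | tmul x m =>
      obtain ⟨f, rfl⟩ := Submodule.mkQ_surjective U m
      refine ⟨x • V.mkQ (fun l => π (f l)), ?_⟩
      rw [map_smul, Submodule.mkQ_apply, Submodule.liftQ_apply, hs0, TensorProduct.smul_tmul',
        smul_eq_mul, mul_one]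
    | add x y hx hy =>
      obtain ⟨x', rfl⟩ := hx
      obtain ⟨y', rfl⟩ := hy
      exact ⟨x' + y', map_add _ _ _⟩
  have hfin2 : Module.Finite k (k ⊗[D] ((Fin t → D) ⧸ U)) := Module.Finite.of_surjective _ hsurj
  have h5 := he'.fintype_card_le_finrank
  rw [Fintype.card_fin] at h5
  rw [hcard]
  exact h5.trans (LinearMap.finrank_le_finrank_of_surjective hsurj)

end Vale.Agent.N202
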