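import Mathlib.RingTheory.Length
import Mathlib.RingTheory.LocalRing.MaximalIdeal.Basic
import Mathlib.Topology.MetricSpace.Pseudo.Lemmas

/-!
P202: colength and multiplicity of an ideal.
-/

namespace Vale.Agent.N202

open Filter Topology

/-- The colength `ℓ_A(A/I)` of an ideal. -/
noncomputable def colength {A : Type*} [CommRing A] (I : Ideal A) : ℕ∞ :=
  Module.length A (A ⧸ I)

/-- `d! ℓ_A(A/I^N) / N^d` tends to `e`. -/
def HasMult {A : Type*} [CommRing A] (I : Ideal A) (d e : ℕ) : Prop :=
  Tendsto (fun N : ℕ => (d.factorial : ℝ) * ((colength (I ^ N)).toNat : ℝ) / (N : ℝ) ^ d) atTop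
    (𝓝 (e : ℝ))

/-- The extension `𝔪S` of the maximal ideal of `R` to `S`. -/
noncomputable def extMax (R S : Type*) [CommRing R] [IsLocalRing R] [CommRing S] [Algebra R S] :
    Ideal S :=
  (IsLocalRing.maximalIdeal R).map (algebraMap R S)

end Vale.Agent.N202
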