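import Vale.Agent.N202.Core

/-!
P202, the sharper inequality: reduction to the components of maximal dimension, and unramified
base change.
-/

set_option linter.unusedSectionVars false

namespace Vale.Agent.N202

open IsLocalRing Filter Topology TensorProduct Vale.Agent.P202 Vale.Agent.P202.CZ

universe u

section

variable {B : Type*} [CommRing B]

/-- the growth function of a module along an ideal. -/
noncomputable def tcI (I : Ideal B) (M : Type*) [AddCommGroup M] [Module B M] (N : ℕ) : ℕ :=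
  (Module.length B (M ⧸ (I ^ N • (⊤ : Submodule B M)))).toNat

variable [IsLocalRing B] [IsNoetherianRing B]

theorem tcI_coe {I : Ideal B} (hI : ell I ≠ ⊤) (M : Type*) [AddCommGroup M] [Module B M]
    [Module.Finite B M] (N : ℕ) :
    (tcI I M N : ℕ∞) = Module.length B (M ⧸ (I ^ N • (⊤ : Submodule B M))) := by
  refine ENat.natCast_toNat ?_
  refine length_ne_top_of_killed (I := I ^ N) (ell_pow_ne_top hI N) _ ?_
  intro r hr m
  obtain ⟨m, rfl⟩ := Submodule.Quotient.mk_surjective _ m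
  rw [← Submodule.Quotient.mk_smul, Submodule.Quotient.mk_eq_zero]
  exact Submodule.smul_mem_smul hr Submodule.mem_top

theorem tcI_mono {I : Ideal B} (hI : ell I ≠ ⊤) (M : Type*) [AddCommGroup M] [Module B M]
    [Module.Finite B M] {N N' : ℕ} (h : N ≤ N') : tcI I M N ≤ tcI I M N' := by
  have h1 : (tcI I M N : ℕ∞) ≤ tcI I M N' := by
    rw [tcI_coe hI, tcI_coe hI]
    exact tc_length_le (Submodule.smul_mono (Ideal.pow_le_pow_right h) le_rfl)
  exact_mod_cast h1

theorem tcI_congr (I : Ideal B) {M M' : Type*} [AddCommGroup M]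
    [Module B M] [AddCommGroup M'] [Module B M'] (e : M ≃ₗ[B] M') (N : ℕ) :
    tcI I M N = tcI I M' N := by
  unfold tcI
  congr 1
  refine (Submodule.Quotient.equiv _ _ e ?_).length_eq
  rw [Submodule.map_smul'', Submodule.map_top]
  congr 1
  exact LinearEquiv.range e

theorem tcI_quot (I J : Ideal B) (N : ℕ) :
    tcI I (B ⧸ J) N = (ell (I.map (Ideal.Quotient.mk J) ^ N)).toNat := by
  unfold tcI ell
  congr 1
  rw [← Ideal.map_pow]
  have h : ((I ^ N) • (⊤ : Submodule B (B ⧸ J))) =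
      ((I ^ N).map (algebraMap B (B ⧸ J))).restrictScalars B :=
    Ideal.smul_top_eq_map _
  rw [h]
  rw [← Module.length_eq_of_surjective (S := B) (R := B ⧸ J)
    (M := (B ⧸ J) ⧸ (I ^ N).map (Ideal.Quotient.mk J)) Ideal.Quotient.mk_surjective]
  exact (Submodule.Quotient.restrictScalarsEquiv B _).length_eq

end

section

variable {R S : Type u} [CommRing R] [IsLocalRing R] [IsNoetherianRing R]
  [CommRing S] [IsLocalRing S] [IsNoetherianRing S] [Algebra R S]

variable (R) in
/-- asymptotic comparison of a module with its base change. -/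
def Cmp2 (I : Ideal S) (t d : ℕ) (M : Type u) [AddCommGroup M] [Module R M] : Prop :=
  ∀ ε : ℝ, 0 < ε → ∃ c : ℕ, ∀ᶠ N : ℕ in atTop,
    (t : ℝ) * ((d.factorial : ℝ) * (tcl R M N : ℝ) / (N : ℝ) ^ d) ≤
      (d.factorial : ℝ) * (tcI I (S ⊗[R] M) (N + c) : ℝ) / (N : ℝ) ^ d + ε

theorem Cmp2.exact [Module.Flat R S] {I : Ideal S} (hI : ell I ≠ ⊤) {t d : ℕ}
    {M₁ M₂ M₃ : Type u} [AddCommGroup M₁] [Module R M₁]
    [Module.Finite R M₁] [AddCommGroup M₂] [Module R M₂] [Module.Finite R M₂]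
    [AddCommGroup M₃] [Module R M₃] [Module.Finite R M₃]
    (f : M₁ →ₗ[R] M₂) (g : M₂ →ₗ[R] M₃) (hf : Function.Injective f)
    (hg : Function.Surjective g) (hfg : Function.Exact f g) (h₁ : Cmp2 R I t d M₁)
    (h₃ : Cmp2 R I t d M₃) : Cmp2 R I t d M₂ := by
  intro ε hε
  obtain ⟨c₁, h₁⟩ := h₁ (ε / 2) (half_pos hε)
  obtain ⟨c₃, h₃⟩ := h₃ (ε / 2) (half_pos hε)
  have hf' : Function.Injective (f.baseChange S) :=
    Module.Flat.lTensor_preserves_injective_linearMap (M := S) f hf
  have hg' : Function.Surjective (g.baseChange S) := LinearMap.lTensor_surjective S hg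
  have hfg' : Function.Exact (f.baseChange S) (g.baseChange S) := lTensor_exact S hfg hg
  obtain ⟨k, hk⟩ := tc_super I (f.baseChange S) (g.baseChange S) hf' hg' hfg'
  refine ⟨max c₁ c₃ + k, ?_⟩
  filter_upwards [h₁, h₃] with N h₁ h₃
  have e1 : tcl R M₂ N ≤ tcl R M₁ N + tcl R M₃ N := by
    have : (tcl R M₂ N : ℕ∞) ≤ tcl R M₁ N + tcl R M₃ N := by
      rw [tcl_coe, tcl_coe, tcl_coe]
      exact tc_sub f g hg hfg
    exact_mod_cast this
  have e2 : tcI I (S ⊗[R] M₁) (N + c₁) + tcI I (S ⊗[R] M₃) (N + c₃) ≤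
      tcI I (S ⊗[R] M₂) (N + (max c₁ c₃ + k)) := by
    have h4 : (tcI I (S ⊗[R] M₁) (N + max c₁ c₃) : ℕ∞) +
        tcI I (S ⊗[R] M₃) (N + max c₁ c₃ + k) ≤ tcI I (S ⊗[R] M₂) (N + max c₁ c₃ + k) := by
      rw [tcI_coe hI, tcI_coe hI, tcI_coe hI]
      exact hk _
    have h5 : tcI I (S ⊗[R] M₁) (N + max c₁ c₃) + tcI I (S ⊗[R] M₃) (N + max c₁ c₃ + k) ≤
        tcI I (S ⊗[R] M₂) (N + max c₁ c₃ + k) := by exact_mod_cast h4
    have h6 := tcI_mono hI (S ⊗[R] M₁) (by omega : N + c₁ ≤ N + max c₁ c₃)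
    have h7 := tcI_mono hI (S ⊗[R] M₃) (by omega : N + c₃ ≤ N + max c₁ c₃ + k)
    rw [← add_assoc]
    omega
  have e1' : (tcl R M₂ N : ℝ) ≤ tcl R M₁ N + tcl R M₃ N := by exact_mod_cast e1
  have e2' : (tcI I (S ⊗[R] M₁) (N + c₁) : ℝ) + tcI I (S ⊗[R] M₃) (N + c₃) ≤
      tcI I (S ⊗[R] M₂) (N + (max c₁ c₃ + k)) := by exact_mod_cast e2
  calc (t : ℝ) * ((d.factorial : ℝ) * (tcl R M₂ N : ℝ) / (N : ℝ) ^ d) ≤
      (t : ℝ) * ((d.factorial : ℝ) * ((tcl R M₁ N : ℝ) + tcl R M₃ N) / (N : ℝ) ^ d) := by gcongr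
    _ = (t : ℝ) * ((d.factorial : ℝ) * (tcl R M₁ N : ℝ) / (N : ℝ) ^ d) +
        (t : ℝ) * ((d.factorial : ℝ) * (tcl R M₃ N : ℝ) / (N : ℝ) ^ d) := by
          rw [mul_add, add_div, mul_add]
    _ ≤ ((d.factorial : ℝ) * (tcI I (S ⊗[R] M₁) (N + c₁) : ℝ) / (N : ℝ) ^ d + ε / 2) +
        ((d.factorial : ℝ) * (tcI I (S ⊗[R] M₃) (N + c₃) : ℝ) / (N : ℝ) ^ d + ε / 2) :=
          add_le_add h₁ h₃
    _ = (d.factorial : ℝ) * ((tcI I (S ⊗[R] M₁) (N + c₁) : ℝ) +
        tcI I (S ⊗[R] M₃) (N + c₃)) / (N : ℝ) ^ d + ε := by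
          rw [mul_add, add_div]; ring
    _ ≤ _ := by gcongr

variable [IsLocalHom (algebraMap R S)] [Module.Flat R S]

/-- primes of smaller dimension. -/
theorem Cmp2.small {I : Ideal S} {t d d' : ℕ} (P : Ideal R) (hP : P ≤ maximalIdeal R)
    (hd' : ringKrullDim (R ⧸ P) = d') (hlt : d' < d) {M : Type u} [AddCommGroup M] [Module R M]
    (e : M ≃ₗ[R] (R ⧸ P)) : Cmp2 R I t d M := by
  intro ε hε
  have l1 := tc_loc_quot P hP
  obtain ⟨eP, heP⟩ := exists_mult_all (A := R ⧸ P) hd'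
  refine ⟨0, ?_⟩
  have h1 : Tendsto (fun N : ℕ => (t : ℝ) * (((d.factorial : ℝ) / (d'.factorial : ℝ)) *
      (hsSeq (R ⧸ P) d' N * ((N : ℝ) ^ (d - d'))⁻¹))) atTop
      (𝓝 ((t : ℝ) * (((d.factorial : ℝ) / (d'.factorial : ℝ)) * ((eP : ℝ) * 0)))) := by
    refine ((heP.mul ?_).const_mul _).const_mul _
    have h2 : Tendsto (fun N : ℕ => (N : ℝ) ^ (d - d')) atTop atTop :=
      (tendsto_pow_atTop (by omega)).comp tendsto_natCast_atTop_atTop
    exact h2.inv_tendsto_atTop
  rw [mul_zero, mul_zero, mul_zero] at h1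
  filter_upwards [h1.eventually (gt_mem_nhds hε), eventually_gt_atTop 0] with N hN hN0
  have hN' : (0 : ℝ) < N := by exact_mod_cast hN0
  have e1 : (tcl R M N : ℝ) =
      ((Module.length (R ⧸ P) ((R ⧸ P) ⧸ maximalIdeal (R ⧸ P) ^ N)).toNat : ℝ) := by
    unfold tcl
    rw [tcl_congr R e, tcl_quot P hP]
  have e2 : (d.factorial : ℝ) * (tcl R M N : ℝ) / (N : ℝ) ^ d =
      ((d.factorial : ℝ) / (d'.factorial : ℝ)) *
      (hsSeq (R ⧸ P) d' N * ((N : ℝ) ^ (d - d'))⁻¹) := by
    unfold hsSeq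
    rw [e1]
    have h3 : (N : ℝ) ^ d = (N : ℝ) ^ d' * (N : ℝ) ^ (d - d') := by
      rw [← pow_add]; congr 1; omega
    have h4 : (d'.factorial : ℝ) ≠ 0 := by exact_mod_cast d'.factorial_ne_zero
    rw [h3]
    field_simp
  rw [e2]
  have h5 : (0 : ℝ) ≤ (d.factorial : ℝ) * (tcI I (S ⊗[R] M) (N + 0) : ℝ) / (N : ℝ) ^ d := by
    positivity
  linarith

/-- primes of maximal dimension. -/
theorem Cmp2.top {d t : ℕ} (P : Ideal R) (hP : P ≤ maximalIdeal R) [IsLocalRing (R ⧸ P)]
    [IsLocalRing (S ⧸ P.map (algebraMap R S))]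
    (H : Core (R ⧸ P) (S ⧸ P.map (algebraMap R S)) d) (hd : ringKrullDim (R ⧸ P) = d)
    (y : Fin d → S) (hy : ∀ i, y i ∈ maximalIdeal S) (hyl : ell (Ideal.span (Set.range y)) ≠ ⊤)
    (ht : ell ((maximalIdeal R).map (algebraMap R S) ⊔ Ideal.span (Set.range y)) = t)
    {M : Type u} [AddCommGroup M] [Module R M]
    (e : M ≃ₗ[R] (R ⧸ P)) : Cmp2 R (Ideal.span (Set.range y)) t d M := by
  intro ε hε
  refine ⟨0, ?_⟩
  obtain ⟨eP, heP⟩ := exists_mult_all (A := R ⧸ P) hd
  set Q := P.map (algebraMap R S) with hQ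
  have hsp : Ideal.span (Set.range fun i => Ideal.Quotient.mk Q (y i)) =
      (Ideal.span (Set.range y)).map (Ideal.Quotient.mk Q) := by
    rw [Ideal.map_span, ← Set.range_comp]
    rfl
  have hfin : ell (Ideal.span (Set.range fun i => Ideal.Quotient.mk Q (y i))) ≠ ⊤ := by
    rw [hsp, ell_map_mk]
    exact ne_top_of_le_ne_top hyl (ell_mono le_sup_left)
  have hm : (maximalIdeal (R ⧸ P)).map (algebraMap (R ⧸ P) (S ⧸ Q)) =
      ((maximalIdeal R).map (algebraMap R S)).map (Ideal.Quotient.mk Q) := by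
    rw [← tc_map_max P hP, Ideal.map_map, Ideal.map_map]
    rfl
  have ht' : ell ((maximalIdeal (R ⧸ P)).map (algebraMap (R ⧸ P) (S ⧸ Q)) ⊔
      Ideal.span (Set.range fun i => Ideal.Quotient.mk Q (y i))) = t := by
    rw [hsp, hm, ← Ideal.map_sup, ell_map_mk, ← ht]
    congr 1
    exact sup_eq_left.mpr (le_sup_of_le_left (Ideal.map_mono hP))
  have hlev := H (fun i => Ideal.Quotient.mk Q (y i)) (fun i => by
    rw [← tc_map_max Q (tc_map_le P hP)]
    exact Ideal.mem_map_of_mem _ (hy i)) hfin eP t heP ht'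
  have h1 : Tendsto (fun N => (t : ℝ) * hsSeq (R ⧸ P) d N) atTop (𝓝 ((t : ℝ) * eP)) :=
    heP.const_mul _
  filter_upwards [h1.eventually (gt_mem_nhds (show (t : ℝ) * eP < t * eP + ε by linarith)),
    eventually_gt_atTop 0] with N h1 hN
  have e1 : (tcl R M N : ℝ) =
      ((Module.length (R ⧸ P) ((R ⧸ P) ⧸ maximalIdeal (R ⧸ P) ^ N)).toNat : ℝ) := by
    unfold tcl
    rw [tcl_congr R e, tcl_quot P hP]
  let e' : S ⊗[R] M ≃ₗ[S] (S ⧸ Q) :=
    (e.baseChange R S M (R ⧸ P)).trans
      (Algebra.TensorProduct.quotIdealMapEquivTensorQuot S P).toLinearEquiv.symm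
  have e2 : t * eP * tc d N ≤ tcI (Ideal.span (Set.range y)) (S ⊗[R] M) (N + 0) := by
    rw [add_zero, tcI_congr _ e', tcI_quot, ← hsp]
    obtain ⟨b, hb⟩ := ENat.ne_top_iff_exists.mp (ell_pow_ne_top hfin N)
    have h2 := hlev N
    rw [← hb] at h2
    rw [← hb, ENat.toNat_natCast]
    exact_mod_cast h2
  have e3 : N ^ d ≤ d.factorial * tc d N := by
    have := pow_le_factorial_mul_card_tri (σ := Fin d) N hN
    rwa [Fintype.card_fin] at this
  have e4 : t * eP * N ^ d ≤
      d.factorial * tcI (Ideal.span (Set.range y)) (S ⊗[R] M) (N + 0) := by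
    calc t * eP * N ^ d ≤ t * eP * (d.factorial * tc d N) := Nat.mul_le_mul_left _ e3
      _ = d.factorial * (t * eP * tc d N) := by ring
      _ ≤ _ := Nat.mul_le_mul_left _ e2
  have e5 : (t : ℝ) * eP ≤ (d.factorial : ℝ) *
      (tcI (Ideal.span (Set.range y)) (S ⊗[R] M) (N + 0) : ℝ) / (N : ℝ) ^ d := by
    rw [le_div_iff₀ (by positivity)]
    exact_mod_cast e4
  rw [e1]
  unfold hsSeq at h1
  linarith

/-- reduction to the components. -/
theorem core_of_primes {d : ℕ} (hd : 0 < d) (hR : ringKrullDim R = d) (hS : ringKrullDim S = d)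
    (H : ∀ (P : Ideal R) [P.IsPrime],
      ∀ [IsLocalRing (R ⧸ P)] [IsLocalRing (S ⧸ P.map (algebraMap R S))]
      [IsLocalHom (algebraMap (R ⧸ P) (S ⧸ P.map (algebraMap R S)))]
      [Module.Flat (R ⧸ P) (S ⧸ P.map (algebraMap R S))],
      ringKrullDim (R ⧸ P) = d → ringKrullDim (S ⧸ P.map (algebraMap R S)) = d →
      Core (R ⧸ P) (S ⧸ P.map (algebraMap R S)) d) :
    Core R S d := by
  intro y hy hyl eR t heR ht
  have key : Cmp2 R (Ideal.span (Set.range y)) t d R := by
    refine IsNoetherianRing.induction_on_isQuotientEquivQuotientPrime R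
      (M := R) inferInstance
      (motive := fun M _ _ _ => Cmp2 R (Ideal.span (Set.range y)) t d M) ?_ ?_ ?_
    · intro M _ _ _ hM ε hε
      refine ⟨0, Eventually.of_forall fun N => ?_⟩
      have h1 : tcl R M N = 0 := by
        unfold tcl
        rw [Module.length_eq_zero]
        rfl
      rw [h1]
      have h5 : (0 : ℝ) ≤ (d.factorial : ℝ) *
          (tcI (Ideal.span (Set.range y)) (S ⊗[R] M) (N + 0) : ℝ) / (N : ℝ) ^ d := by
        positivity
      simp only [Nat.cast_zero, mul_zero, zero_div]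
      linarith
    · intro M _ _ _ P e
      have hPp : P.1.IsPrime := P.2
      have hP : P.1 ≤ maximalIdeal R := IsLocalRing.le_maximalIdeal P.2.ne_top
      have l1 := tc_loc_quot P.1 hP
      have l2 := tc_loc_quot (P.1.map (algebraMap R S)) (tc_map_le P.1 hP)
      have l3 := tc_islocalhom (S := S) P.1 hP
      have l4 : Module.Flat (R ⧸ P.1) (S ⧸ P.1.map (algebraMap R S)) := flat_quot P.1
      have hle : ringKrullDim (R ⧸ P.1) ≤ ringKrullDim R := ringKrullDim_quotient_le P.1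
      rcases hle.lt_or_eq with hlt | heq
      · obtain ⟨d', h3⟩ := exists_dim (R ⧸ P.1)
        refine Cmp2.small P.1 hP h3 ?_ e
        rw [h3, hR] at hlt
        exact_mod_cast hlt
      · have hd1 : ringKrullDim (R ⧸ P.1) = d := heq.trans hR
        have hs1 : ringKrullDim (S ⧸ P.1.map (algebraMap R S)) = d :=
          (tc_dim_quot P.1 hP heq).trans hS
        exact Cmp2.top P.1 hP (H P.1 hd1 hs1) hd1 y hy hyl ht e
    · intro M₁ _ _ _ M₂ _ _ _ M₃ _ _ _ f g hf hg hfg h₁ h₃
      exact Cmp2.exact hyl f g hf hg hfg h₁ h₃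
  obtain ⟨E, hE⟩ := ENat.ne_top_iff_exists.mp (emin_ne_top hyl)
  have heS := tendsto_of_red hd y (Ideal.span (Set.range y)) le_rfl 0 (fun _ => le_rfl) hyl E
    hE.symm
  have hreal : (t : ℝ) * eR ≤ E := by
    refine le_of_forall_pos_le_add fun ε hε => ?_
    obtain ⟨c, hc⟩ := key ε hε
    have e1 : ∀ N, (d.factorial : ℝ) * (tcl R R N : ℝ) / (N : ℝ) ^ d = hsSeq R d N := by
      intro N
      unfold tcl hsSeq
      rw [smul_eq_mul, Ideal.mul_top]
    have e2 : ∀ N, tcI (Ideal.span (Set.range y)) (S ⊗[R] R) N =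
        (ell (Ideal.span (Set.range y) ^ N)).toNat := by
      intro N
      rw [tcI_congr _ (TensorProduct.AlgebraTensorModule.rid R S S)]
      unfold tcI ell
      rw [smul_eq_mul, Ideal.mul_top]
    have h2 : Tendsto (fun N : ℕ => (d.factorial : ℝ) *
        ((ell (Ideal.span (Set.range y) ^ (N + c))).toNat : ℝ) / (N : ℝ) ^ d) atTop
        (𝓝 ((E : ℝ) * 1)) := by
      have h3 := (tendsto_add_atTop_iff_nat c).mpr heS
      refine (h3.mul (tendsto_shift_pow_ratio c d)).congr' ?_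
      filter_upwards [eventually_gt_atTop 0] with N hN
      have h7 : (N : ℝ) ≠ 0 := by positivity
      have h8 : ((N + c : ℕ) : ℝ) ≠ 0 := by positivity
      field_simp
    rw [mul_one] at h2
    refine le_of_tendsto_of_tendsto (heR.const_mul (t : ℝ)) (h2.add_const ε) ?_
    filter_upwards [hc] with N hN
    rw [e1, e2] at hN
    exact hN
  refine level_of_le_emin y _ ?_
  rw [← hE]
  have h1 : t * eR ≤ E := by exact_mod_cast hreal
  exact_mod_cast h1

end

/-- A pair of rings with the same lengths. -/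
def Ext (R S R' S' : Type u) [CommRing R] [IsLocalRing R] [CommRing S] [IsLocalRing S]
    [Algebra R S] [CommRing R'] [IsLocalRing R'] [CommRing S'] [IsLocalRing S'] [Algebra R' S']
    (φ : S →+* S') : Prop :=
  (∀ j, ell (maximalIdeal R' ^ j) = ell (maximalIdeal R ^ j)) ∧
  (∀ I : Ideal S, ell (I.map φ) = ell I) ∧
  (maximalIdeal S).map φ = maximalIdeal S' ∧
  (maximalIdeal R').map (algebraMap R' S') = ((maximalIdeal R).map (algebraMap R S)).map φ ∧
  ringKrullDim R' = ringKrullDim R ∧ ringKrullDim S' = ringKrullDim S ∧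
  Nonempty (R →+* R')

theorem Ext.hs {R S R' S' : Type u} [CommRing R] [IsLocalRing R] [CommRing S] [IsLocalRing S]
    [Algebra R S] [CommRing R'] [IsLocalRing R'] [CommRing S'] [IsLocalRing S'] [Algebra R' S']
    {φ : S →+* S'} (h : Ext R S R' S' φ) (d : ℕ) : hsSeq R' d = hsSeq R d := by
  funext N
  have h1 := h.1 N
  unfold ell at h1
  unfold hsSeq
  rw [h1]

theorem Ext.core {R S R' S' : Type u} [CommRing R] [IsLocalRing R] [CommRing S] [IsLocalRing S]
    [Algebra R S] [CommRing R'] [IsLocalRing R'] [CommRing S'] [IsLocalRing S'] [Algebra R' S']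
    {φ : S →+* S'} (h : Ext R S R' S' φ) {d : ℕ} (H : Core R' S' d) : Core R S d := by
  intro y hy hyl eR t heR ht j
  have hhs := h.hs d
  obtain ⟨-, h2, h3, h4, -⟩ := h
  have hsp : Ideal.span (Set.range fun i => φ (y i)) = (Ideal.span (Set.range y)).map φ := by
    rw [Ideal.map_span, ← Set.range_comp]
    rfl
  have h5 := H (fun i => φ (y i)) (fun i => by
    rw [← h3]
    exact Ideal.mem_map_of_mem _ (hy i)) (by rw [hsp, h2]; exact hyl) eR t
    (by rw [hhs]; exact heR) (by rw [hsp, h4, ← Ideal.map_sup, h2]; exact ht) j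
  rwa [hsp, ← Ideal.map_pow, h2] at h5

open Polynomial in
theorem exists_ext_infinite (R S : Type u) [CommRing R] [IsLocalRing R] [IsNoetherianRing R]
    [CommRing S] [IsLocalRing S] [IsNoetherianRing S] [Algebra R S]
    [IsLocalHom (algebraMap R S)] [Module.Flat R S] :
    ∃ (R' S' : Type u) (_ : CommRing R') (_ : IsLocalRing R') (_ : IsNoetherianRing R')
      (_ : CommRing S') (_ : IsLocalRing S') (_ : IsNoetherianRing S') (_ : Algebra R' S')
      (_ : IsLocalHom (algebraMap R' S')) (_ : Module.Flat R' S')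
      (_ : Infinite (ResidueField R')) (φ : S →+* S'), Ext R S R' S' φ := by
  let a0 : Algebra R[X] S[X] := Polynomial.algebra R S
  have : (mX S).LiesOver (mX R) := liesOver_mX R S
  have : Module.Flat R[X] S[X] := flat_polynomial R S
  let a1 : Algebra (Nag R) (Nag S) := Localization.AtPrime.algebraOfLiesOver (mX R) (mX S)
  have h1 : Localization.AtPrime.IsLiesOverAlgebra (mX R) (mX S) := ⟨rfl⟩
  have hcomp : ∀ f : R[X], algebraMap (Nag R) (Nag S) (algebraMap R[X] (Nag R) f) =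
      algebraMap S[X] (Nag S) (f.map (algebraMap R S)) := by
    intro f
    rw [h1.algebraMap_eq, Localization.localRingHom_to_map]
    rfl
  have hcomp' : (algebraMap (Nag R) (Nag S)).comp (algebraMap R (Nag R)) =
      (algebraMap S (Nag S)).comp (algebraMap R S) := by
    ext x
    have := hcomp (C x)
    rw [Polynomial.map_C] at this
    exact this
  refine ⟨Nag R, Nag S, inferInstance, inferInstance, inferInstance, inferInstance, inferInstance,
    inferInstance, a1, inferInstance, inferInstance, infinite_nag R, algebraMap S (Nag S),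
    length_nag_pow R, length_nag S, map_maximalIdeal_nag S, ?_, ringKrullDim_nag R,
    ringKrullDim_nag S, ⟨algebraMap R (Nag R)⟩⟩
  rw [← map_maximalIdeal_nag, Ideal.map_map, hcomp', ← Ideal.map_map]

theorem exists_ext_complete (R S : Type u) [CommRing R] [IsLocalRing R] [IsNoetherianRing R]
    [CommRing S] [IsLocalRing S] [IsNoetherianRing S] [Algebra R S]
    [IsLocalHom (algebraMap R S)] [Module.Flat R S] :
    ∃ (R' S' : Type u) (_ : CommRing R') (_ : IsLocalRing R') (_ : IsNoetherianRing R')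
      (_ : CommRing S') (_ : IsLocalRing S') (_ : IsNoetherianRing S') (_ : Algebra R' S')
      (_ : IsLocalHom (algebraMap R' S')) (_ : Module.Flat R' S')
      (_ : IsAdicComplete (maximalIdeal R') R') (_ : IsAdicComplete (maximalIdeal S') S')
      (φ : S →+* S'), Ext R S R' S' φ ∧
      (Infinite (ResidueField R) → Infinite (ResidueField R')) := by
  have nR : IsNoetherianRing (AdicCompletion (maximalIdeal R) R) :=
    isNoetherianRing_adicCompletion _
  have nS : IsNoetherianRing (AdicCompletion (maximalIdeal S) S) :=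
    isNoetherianRing_adicCompletion _
  have hRS : (maximalIdeal R).map (algebraMap R S) ≤ maximalIdeal S :=
    (((IsLocalRing.local_hom_TFAE (algebraMap R S)).out 0 2) :
      IsLocalHom (algebraMap R S) ↔ _).mp inferInstance
  obtain ⟨Φ, hΦ⟩ := exists_complHom (algebraMap R S) hRS
  let algR'S' : Algebra (AdicCompletion (maximalIdeal R) R) (AdicCompletion (maximalIdeal S) S) :=
    Φ.toAlgebra
  have st1 : IsScalarTower R (AdicCompletion (maximalIdeal R) R)
      (AdicCompletion (maximalIdeal S) S) := IsScalarTower.of_algebraMap_eq fun x => by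
    rw [IsScalarTower.algebraMap_apply R S (AdicCompletion (maximalIdeal S) S)]
    exact (hΦ x).symm
  obtain ⟨loc, fl, h1, -, h3, h4, -, h6, -⟩ := completion_package (R := R) (S := S)
    (R' := AdicCompletion (maximalIdeal R) R) (S' := AdicCompletion (maximalIdeal S) S)
    AdicCompletion.maximalIdeal_eq_map AdicCompletion.maximalIdeal_eq_map adicCompletion_dense
    (AdicCompletion.residueField_map_bijective R) (AdicCompletion.residueField_map_bijective S)
  refine ⟨_, _, inferInstance, inferInstance, nR, inferInstance, inferInstance, nS, algR'S',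
    loc, fl, inferInstance, inferInstance, algebraMap S (AdicCompletion (maximalIdeal S) S),
    ⟨h1, length_quot_map_of_unram AdicCompletion.maximalIdeal_eq_map,
      AdicCompletion.maximalIdeal_eq_map.symm, ?_, h3, h4,
      ⟨algebraMap R (AdicCompletion (maximalIdeal R) R)⟩⟩, h6⟩
  rw [AdicCompletion.maximalIdeal_eq_map, Ideal.map_map, Ideal.map_map,
    ← IsScalarTower.algebraMap_eq R (AdicCompletion (maximalIdeal R) R),
    ← IsScalarTower.algebraMap_eq R S (AdicCompletion (maximalIdeal S) S)]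

/-- All rings of prime characteristic. -/
theorem core_charp_all (p : ℕ) [Fact p.Prime] {R S : Type u} [CommRing R] [IsLocalRing R]
    [IsNoetherianRing R] [CommRing S] [IsLocalRing S] [IsNoetherianRing S]
    [Algebra R S] [IsLocalHom (algebraMap R S)] [Module.Flat R S] [_root_.CharP R p]
    {d : ℕ} (hd : 0 < d) (hR : ringKrullDim R = d) (hS : ringKrullDim S = d) : Core R S d := by
  obtain ⟨r, rfl⟩ : ∃ r, d = r + 1 := ⟨d - 1, by omega⟩
  obtain ⟨R1, S1, _, _, _, _, _, _, _, _, _, hinf, φ1, h1⟩ := exists_ext_infinite R S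
  obtain ⟨R2, S2, _, _, _, _, _, _, _, _, _, _, _, φ2, h2, hinf2⟩ := exists_ext_complete R1 S1
  have := hinf2 hinf
  refine h1.core (h2.core ?_)
  obtain ⟨-, -, -, -, a1, a2, ⟨ψ1⟩⟩ := h1
  obtain ⟨-, -, -, -, b1, b2, ⟨ψ2⟩⟩ := h2
  let _ : Algebra R R2 := (ψ2.comp ψ1).toAlgebra
  have : _root_.CharP R2 p := CharP.charP_of_algebra p Fact.out (R := R)
  exact core_charp p (b1.trans (a1.trans hR)) (b2.trans (a2.trans hS))

end Vale.Agent.N202
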