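import Vale.Agent.N202.Spec
import Vale.Agent.P202.Bdl.B15

/-!
P202, the sharper inequality: all characteristics, all primary ideals.
-/

set_option linter.unusedSectionVars false

namespace Vale.Agent.N202

open IsLocalRing Filter Topology Vale.Agent.P202 Vale.Agent.P202.CZ

universe u

section

variable {R S : Type u} [CommRing R] [IsLocalRing R] [IsNoetherianRing R]
  [CommRing S] [IsLocalRing S] [IsNoetherianRing S]
  [Algebra R S] [IsLocalHom (algebraMap R S)] [Module.Flat R S]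

theorem core_domain [IsDomain R] [IsAdicComplete (maximalIdeal R) R] [Infinite (ResidueField R)]
    [IsAdicComplete (maximalIdeal S) S] {r : ℕ} (hR : ringKrullDim R = (r + 1 : ℕ))
    (hS : ringKrullDim S = (r + 1 : ℕ)) : Core R S (r + 1) := by
  obtain ⟨q, hq⟩ := CharP.exists (ResidueField R)
  rcases CharP.char_is_prime_or_zero (ResidueField R) q with hqp | rfl
  · have : Fact q.Prime := ⟨hqp⟩
    obtain ⟨p', hp'⟩ := CharP.exists R
    rcases CharP.char_is_prime_or_zero R p' with hpp | rfl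
    · have : Fact p'.Prime := ⟨hpp⟩
      exact core_charp p' hR hS
    · have : CharZero R := CharP.charP_to_charZero R
      exact core_mixed q hR hS
  · have h0 : CharZero (ResidueField R) := CharP.charP_to_charZero _
    have h1 : ∀ I : Ideal R, I ≠ ⊤ → CharZero (R ⧸ I) := by
      intro I hI
      have hle : I ≤ maximalIdeal R := IsLocalRing.le_maximalIdeal hI
      have h2 : CharZero (R ⧸ maximalIdeal R) := h0
      exact (Ideal.Quotient.factor hle).charZero
    let _ : Algebra ℚ R := ((EqualCharZero.nonempty_algebraRat_iff R).mpr h1).some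
    exact core_zero (Nat.succ_pos r) hR hS

theorem core_dim_zero (hR : ringKrullDim R = (0 : ℕ)) : Core R S 0 := by
  intro y _ hyl eR t heR ht j
  have hy0 : Ideal.span (Set.range y) = ⊥ := by
    rw [Set.range_eq_empty, Ideal.span_empty]
  rw [hy0] at hyl ht ⊢
  rw [sup_bot_eq] at ht
  obtain ⟨a, ha⟩ := exists_pow_eq_bot hR
  have h1 : eR = (ell (⊥ : Ideal R)).toNat := by
    exact_mod_cast tendsto_nhds_unique heR (tendsto_zero_dim ha)
  have h2 : (eR : ℕ∞) = ell (⊥ : Ideal R) := by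
    rw [h1]
    exact ENat.natCast_toNat (ell_ne_top_of_pow_le (s := a) ha.le)
  have h3 : ell (⊥ : Ideal S) = (eR : ℕ∞) * t := by
    have h4 := IsLocalRing.length_baseChange R S (R ⧸ (⊥ : Ideal R))
    rw [← (Algebra.TensorProduct.quotIdealMapEquivTensorQuot S
      (⊥ : Ideal R)).toLinearEquiv.length_eq, Ideal.map_bot] at h4
    rw [h2, ← ht]
    exact h4
  rcases Nat.eq_zero_or_pos j with rfl | hj
  · have : tc 0 0 = 0 := by
      have : tri (Fin 0) 0 = ∅ := by ext u; simp [mem_tri]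
      rw [tc, this, Finset.card_empty]
    rw [this]
    simp
  · have h5 : tc 0 j ≤ 1 := by
      have := factorial_mul_card_tri_le (σ := Fin 0) j
      simpa using this
    rw [Ideal.bot_pow hj.ne', h3]
    have h6 : t * eR * tc 0 j ≤ eR * t := by
      calc t * eR * tc 0 j ≤ t * eR * 1 := Nat.mul_le_mul_left _ h5
        _ = eR * t := by ring
    exact_mod_cast h6

theorem core_all {d : ℕ} (hR : ringKrullDim R = d) (hS : ringKrullDim S = d) : Core R S d := by
  rcases Nat.eq_zero_or_pos d with rfl | hd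
  · exact core_dim_zero hR
  obtain ⟨r, rfl⟩ : ∃ r, d = r + 1 := ⟨d - 1, by omega⟩
  obtain ⟨R1, S1, _, _, _, _, _, _, _, _, _, hinf, φ1, h1⟩ := exists_ext_infinite R S
  obtain ⟨R2, S2, _, _, _, _, _, _, _, _, _, _, _, φ2, h2, hinf2⟩ := exists_ext_complete R1 S1
  have := hinf2 hinf
  refine h1.core (h2.core ?_)
  obtain ⟨-, -, -, -, a1, a2, -⟩ := h1
  obtain ⟨-, -, -, -, b1, b2, -⟩ := h2
  refine core_of_primes hd (b1.trans (a1.trans hR)) (b2.trans (a2.trans hS)) ?_
  intro P _ _ _ _ _ hd1 hs1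
  have c1 : IsAdicComplete (maximalIdeal (R2 ⧸ P)) (R2 ⧸ P) :=
    loc_isAdicComplete_quotient P Ideal.IsPrime.ne_top'
  have c2 : IsAdicComplete (maximalIdeal (S2 ⧸ P.map (algebraMap R2 S2)))
      (S2 ⧸ P.map (algebraMap R2 S2)) :=
    loc_isAdicComplete_quotient _ (by
      have : Nontrivial (S2 ⧸ P.map (algebraMap R2 S2)) := inferInstance
      exact Ideal.Quotient.nontrivial_iff.mp this)
  have : Infinite (ResidueField (R2 ⧸ P)) := by
    have h1 : IsLocalHom (Ideal.Quotient.mk P) :=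
      IsLocalHom.of_surjective _ Ideal.Quotient.mk_surjective
    exact Infinite.of_injective (ResidueField.map (Ideal.Quotient.mk P)) (RingHom.injective _)
  exact core_domain hd1 hs1

end

theorem ell_le_drop {A ι : Type*} [CommRing A] (I L : Ideal A) (y : ι → A)
    (h : ∀ i, ∀ a ∈ L, a * y i ∈ I) (s : Finset ι) :
    ell I ≤ ell (I ⊔ Ideal.span (y '' s)) + s.card * ell L := by
  classical
  induction s using Finset.induction_on with
  | empty => simp
  | insert a s ha ih =>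
    refine ih.trans ?_
    rw [ell_eq_add (I ⊔ Ideal.span (y '' s)) (y a), Finset.card_insert_of_notMem ha,
      Finset.coe_insert, Set.image_insert_eq, Ideal.span_insert, Nat.cast_succ, add_mul, one_mul,
      sup_assoc, sup_comm (Ideal.span (y '' s))]
    have h1 : ell (col (I ⊔ Ideal.span (y '' s)) (y a)) ≤ ell L :=
      ell_mono fun b hb => mem_col.mpr (Ideal.mem_sup_left (h a b hb))
    calc _ ≤ ell L + ell (I ⊔ (Ideal.span {y a} ⊔ Ideal.span (y '' s))) + s.card * ell L := by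
          gcongr
      _ = _ := by ring

theorem exists_red {A : Type*} [CommRing A] [IsLocalRing A] [IsNoetherianRing A]
    [Infinite (ResidueField A)] {d : ℕ} (hd : ringKrullDim A = d) (J : Ideal A) (hJ : J ≠ ⊤)
    (hJl : ell J ≠ ⊤) : ∃ y : Fin d → A, IsRed (Ideal.span (Set.range y)) J := by
  obtain ⟨w, hw, hws⟩ := exists_parameters hd
  obtain ⟨s, x0, hspan⟩ := Submodule.fg_iff_exists_fin_generating_family.mp
    (IsNoetherian.noetherian J : J.FG)
  have hspan' : Ideal.span (Set.range x0) = J := hspan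
  obtain ⟨D, hD⟩ := exists_pow_le_of_ell_ne_top hJl
  obtain ⟨B, hB⟩ := exists_growth w hws J D ((Ideal.pow_right_mono (by
    rw [Ideal.span_le]
    rintro _ ⟨i, rfl⟩
    exact hw i) D).trans hD) hJl
  obtain ⟨x, -, hx⟩ := exists_reduction (R := A) x0 (fun i => IsLocalRing.le_maximalIdeal hJ
    (by rw [← hspan']; exact Ideal.subset_span ⟨i, rfl⟩)) d B
    (fun n hn => by rw [hspan']; exact hB n hn)
  exact ⟨x, hspan' ▸ hx⟩

section

variable {R S : Type u} [CommRing R] [IsLocalRing R] [IsNoetherianRing R]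
  [CommRing S] [IsLocalRing S] [IsNoetherianRing S]
  [Algebra R S] [IsLocalHom (algebraMap R S)] [Module.Flat R S]

theorem ideal_infinite [Infinite (ResidueField R)] {d : ℕ} (hR : ringKrullDim R = d)
    (hS : ringKrullDim S = d) {eR : ℕ} (heR : Tendsto (hsSeq R d) atTop (𝓝 (eR : ℝ)))
    (J : Ideal S) (hJ : J ≠ ⊤) (hJl : ell J ≠ ⊤) :
    ∃ eJ : ℕ, Tendsto (fun N : ℕ => (d.factorial : ℝ) * (((ell (J ^ N)).toNat : ℕ) : ℝ) /
        (N : ℝ) ^ d) atTop (𝓝 (eJ : ℝ)) ∧
      ∀ K : Ideal S, ell ((maximalIdeal R).map (algebraMap R S) ⊔ K * J) * eR ≤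
        eJ + d * (ell ((maximalIdeal R).map (algebraMap R S) ⊔ K) * eR) := by
  have : Infinite (ResidueField S) :=
    Infinite.of_injective (algebraMap (ResidueField R) (ResidueField S)) (RingHom.injective _)
  obtain ⟨y, hred⟩ := exists_red hS J hJ hJl
  obtain ⟨c, hc⟩ := hred.exists_pow_le
  have hyJ : ∀ i, y i ∈ J := fun i => hred.1 (Ideal.subset_span ⟨i, rfl⟩)
  have hyl : ell (Ideal.span (Set.range y)) ≠ ⊤ := by
    have h1 := hc 1
    rw [pow_one] at h1
    exact ne_top_of_le_ne_top (ell_pow_ne_top hJl _) (ell_mono h1)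
  obtain ⟨eJ, heJ⟩ : ∃ eJ : ℕ, Tendsto (fun N : ℕ => (d.factorial : ℝ) *
      (((ell (J ^ N)).toNat : ℕ) : ℝ) / (N : ℝ) ^ d) atTop (𝓝 (eJ : ℝ)) := by
    rcases Nat.eq_zero_or_pos d with rfl | hd
    · refine ⟨(ell (⊥ : Ideal S)).toNat, tendsto_const_nhds.congr' ?_⟩
      filter_upwards [eventually_ge_atTop (1 + c)] with N hN
      have h1 := (Ideal.pow_le_pow_right hN).trans (hc 1)
      rw [pow_one, Set.range_eq_empty, Ideal.span_empty, le_bot_iff] at h1
      simp [h1]
    · obtain ⟨E, hE⟩ := ENat.ne_top_iff_exists.mp (emin_ne_top hyl)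
      exact ⟨E, tendsto_of_red hd y J hred.1 c hc hyl E hE.symm⟩
  refine ⟨eJ, heJ, fun K => ?_⟩
  set mS := (maximalIdeal R).map (algebraMap R S) with hmS
  obtain ⟨t, ht⟩ := ENat.ne_top_iff_exists.mp
    (ne_top_of_le_ne_top hyl (ell_mono (le_sup_right : _ ≤ mS ⊔ Ideal.span (Set.range y))))
  have hlev := core_all hR hS y (fun i => IsLocalRing.le_maximalIdeal hJ (hyJ i)) hyl eR t heR
    ht.symm
  have h1 : ((t * eR : ℕ) : ℝ) ≤ eJ := by
    refine limit_lower (c := c) (fun N => (ell (J ^ N)).toNat) (fun N => ?_) eJ heJ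
    obtain ⟨b, hb⟩ := ENat.ne_top_iff_exists.mp (ell_pow_ne_top hJl (N + c))
    have h2 := (hlev N).trans (ell_mono (hc N))
    rw [← hb] at h2
    simp only [← hb, ENat.toNat_natCast]
    exact_mod_cast h2
  have h2 : (t : ℕ∞) * eR ≤ eJ := by exact_mod_cast h1
  have h3 := ell_le_drop (mS ⊔ K * J) (mS ⊔ K) y (fun i a ha => by
    obtain ⟨b, hb, b', hb', rfl⟩ := Submodule.mem_sup.mp ha
    rw [add_mul]
    exact Ideal.add_mem _ (Ideal.mem_sup_left (Ideal.mul_mem_right _ _ hb))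
      (Ideal.mem_sup_right (Ideal.mul_mem_mul hb' (hyJ i)))) Finset.univ
  rw [Finset.coe_univ, Set.image_univ, Finset.card_univ, Fintype.card_fin] at h3
  have h4 : ell (mS ⊔ K * J ⊔ Ideal.span (Set.range y)) ≤ t := by
    rw [ht]
    exact ell_mono (sup_le_sup_right le_sup_left _)
  calc ell (mS ⊔ K * J) * eR ≤ ((t : ℕ∞) + d * ell (mS ⊔ K)) * eR := by
        gcongr
        exact h3.trans (by gcongr)
    _ = t * eR + d * (ell (mS ⊔ K) * eR) := by ring
    _ ≤ _ := by gcongr

theorem ideal_all {d : ℕ} (hR : ringKrullDim R = d)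
    (hS : ringKrullDim S = d) {eR : ℕ} (heR : Tendsto (hsSeq R d) atTop (𝓝 (eR : ℝ)))
    (J : Ideal S) (hJ : J ≠ ⊤) (hJl : ell J ≠ ⊤) :
    ∃ eJ : ℕ, Tendsto (fun N : ℕ => (d.factorial : ℝ) * (((ell (J ^ N)).toNat : ℕ) : ℝ) /
        (N : ℝ) ^ d) atTop (𝓝 (eJ : ℝ)) ∧
      ell ((maximalIdeal R).map (algebraMap R S) ⊔ J) * eR ≤ eJ ∧
      ∀ K : Ideal S, ell ((maximalIdeal R).map (algebraMap R S) ⊔ K * J) * eR ≤
        eJ + d * (ell ((maximalIdeal R).map (algebraMap R S) ⊔ K) * eR) := by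
  obtain ⟨R1, S1, _, _, _, _, _, _, _, _, _, hinf, φ, h1⟩ := exists_ext_infinite R S
  have hhs := h1.hs d
  obtain ⟨-, h2, -, h4, a1, a2, -⟩ := h1
  obtain ⟨eJ, heJ, hK⟩ := ideal_infinite (a1.trans hR) (a2.trans hS) (hhs ▸ heR) (J.map φ)
    (fun h => hJ (by rw [← ell_eq_zero_iff, ← h2, h, ell_top])) (by rw [h2]; exact hJl)
  have hK' : ∀ K : Ideal S, ell ((maximalIdeal R).map (algebraMap R S) ⊔ K * J) * eR ≤
      eJ + d * (ell ((maximalIdeal R).map (algebraMap R S) ⊔ K) * eR) := by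
    intro K
    have h5 := hK (K.map φ)
    rwa [h4, ← Ideal.map_mul, ← Ideal.map_sup, ← Ideal.map_sup, h2, h2] at h5
  refine ⟨eJ, ?_, ?_, hK'⟩
  · simpa only [← Ideal.map_pow, h2] using heJ
  · have h5 := hK' ⊤
    rwa [Ideal.top_mul, sup_top_eq, ell_top, zero_mul, mul_zero, add_zero] at h5

theorem level_all {d : ℕ} (hR : ringKrullDim R = d)
    (hS : ringKrullDim S = d) {eR : ℕ} (heR : Tendsto (hsSeq R d) atTop (𝓝 (eR : ℝ)))
    (y : Fin d → S) (j : ℕ) :
    ((j + d).choose d : ℕ∞) *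
      (ell ((maximalIdeal R).map (algebraMap R S) ⊔ Ideal.span (Set.range y)) * eR) ≤
      ell (Ideal.span (Set.range y) ^ (j + 1)) := by
  by_cases hy : ∀ i, y i ∈ maximalIdeal S
  swap
  · obtain ⟨i, hi⟩ := not_forall.mp hy
    have h1 : Ideal.span (Set.range y) = ⊤ :=
      Ideal.eq_top_of_isUnit_mem _ (Ideal.subset_span ⟨i, rfl⟩) (notMem_maximalIdeal.mp hi)
    rw [h1, sup_top_eq, ell_top, zero_mul, mul_zero]
    exact zero_le
  by_cases hyl : ell (Ideal.span (Set.range y)) = ⊤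
  · have h1 := ell_mono (Ideal.pow_le_self (I := Ideal.span (Set.range y)) j.succ_ne_zero)
    rw [hyl, top_le_iff] at h1
    rw [h1]
    exact le_top
  obtain ⟨t, ht⟩ := ENat.ne_top_iff_exists.mp (ne_top_of_le_ne_top hyl
    (ell_mono (le_sup_right : _ ≤ (maximalIdeal R).map (algebraMap R S) ⊔ _)))
  have h1 := core_all hR hS y hy hyl eR t heR ht.symm (j + 1)
  have h2 : tc d (j + 1) = (j + d).choose d := by
    rw [tc, card_tri_succ, Nat.multichoose_eq, Fintype.card_fin,
      show d + 1 + j - 1 = j + d by omega, Nat.choose_symm_add]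
  rw [h2] at h1
  rw [← ht]
  refine le_trans (le_of_eq ?_) h1
  push_cast
  ring

end

end Vale.Agent.N202
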