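import Vale.Agent.N202.Mod

/-!
P202, the sharper inequality: equal characteristic zero by specialization.
-/

set_option linter.unusedSectionVars false

namespace Vale.Agent.N202

open MvPowerSeries IsLocalRing TensorProduct Filter Topology Vale.Agent.P202 Vale.Agent.P202.CZ

universe u

theorem final_ineq2 {p : ℕ} (hp : p.Prime) {R S : Type u} [CommRing R]
    [IsLocalRing R] [IsNoetherianRing R] [CommRing S] [IsLocalRing S] [IsNoetherianRing S]
    [Algebra R S] [IsLocalHom (algebraMap R S)] [Module.Flat R S] [_root_.CharP R p]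
    {d dR dS : ℕ} (hd : 0 < d) (hdR : ringKrullDim R = dR) (hdS : ringKrullDim S = dS)
    (hdSle : dS ≤ d) {r a j l t : ℕ} (hj : 0 < j)
    (hlow : ∀ N, (r : ℕ∞) * (tc d N : ℕ∞) ≤ ell (maximalIdeal R ^ (N + a)))
    (y : Fin d → S) (hy : ∀ i, y i ∈ maximalIdeal S)
    (ht : ell ((maximalIdeal R).map (algebraMap R S) ⊔ Ideal.span (Set.range y)) = t)
    (hl : ell (Ideal.span (Set.range y) ^ j) ≤ (l : ℕ∞)) : t * r * tc d j ≤ l := by
  rcases Nat.eq_zero_or_pos r with rfl | hr
  · simp
  have h1 : d ≤ dR := le_dim_of_growth hr hdR hlow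
  have h2 : dR ≤ dS := dim_le_of_flat (R := R) (S := S) hdR hdS
  obtain rfl : dR = d := by omega
  obtain rfl : dS = dR := by omega
  obtain ⟨eR, heR⟩ := exists_mult (A := R) hd hdR
  have h4 : (r : ℝ) ≤ eR := by
    refine limit_lower (c := a) (fun N => (ell (maximalIdeal R ^ N)).toNat) ?_ eR heR
    intro N
    obtain ⟨b, hb⟩ := ENat.ne_top_iff_exists.mp
      (ell_ne_top_of_pow_le (I := maximalIdeal R ^ (N + a)) le_rfl)
    have h5 := hlow N
    rw [← hb] at h5
    simp only [← hb, ENat.toNat_natCast]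
    exact_mod_cast h5
  have h6 : r ≤ eR := by exact_mod_cast h4
  have hyl : ell (Ideal.span (Set.range y)) ≠ ⊤ :=
    ne_top_of_le_ne_top (ne_top_of_le_ne_top (ENat.natCast_ne_top l) hl)
      (ell_mono (Ideal.pow_le_self hj.ne'))
  have : Fact p.Prime := ⟨hp⟩
  have h7 := (core_charp_all p hd hdR hdS y hy hyl eR t heR ht j).trans hl
  have h8 : t * eR * tc dS j ≤ l := by exact_mod_cast h7
  exact (Nat.mul_le_mul_right _ (Nat.mul_le_mul_left _ h6)).trans h8

theorem mult_le_of_growth {R : Type u} [CommRing R] [IsLocalRing R] [IsNoetherianRing R]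
    {d r B eR : ℕ} (hd : 0 < d)
    (h : ∀ N : ℕ, ell (maximalIdeal R ^ N) ≤ (r : ℕ∞) * (tc d N : ℕ∞) +
      (B : ℕ∞) * ((N : ℕ∞) + 1) ^ (d - 1))
    (heR : Tendsto (hsSeq R d) atTop (𝓝 (eR : ℝ))) : eR ≤ r := by
  have h1 : Tendsto (fun N : ℕ => (d.factorial : ℝ) * ((tc d N : ℕ) : ℝ) / (N : ℝ) ^ d) atTop
      (𝓝 ((1 : ℕ) : ℝ)) :=
    tendsto_of_bounds (B := 0) (c := 0) hd (fun N => tc d N) (fun N => by simp)
      (fun N => by simp)
  have h2 := le_of_growth hd r 0 (d.factorial * B)
    (fun N => (Module.length R (R ⧸ maximalIdeal R ^ N)).toNat) (fun N => tc d N) (fun N => by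
      have h3 : ell (maximalIdeal R ^ N) ≤ ((r * tc d N + B * (N + 1) ^ (d - 1) : ℕ) : ℕ∞) := by
        exact_mod_cast h N
      have h4 := Nat.mul_le_mul_left d.factorial (ENat.toNat_le_of_le_natCast h3)
      refine le_trans h4 (le_of_eq ?_)
      rw [add_zero]
      ring) eR _ heR h1
  rw [Nat.cast_one, mul_one] at h2
  exact_mod_cast h2

theorem exists_base_change2 {A C L : Type u} {k : Type*} [CommRing A] [CommRing C] [CommRing L]
    [Field k] [Algebra A C] (θ : A →+* L) (ε : L →+* k) (εC : C →+* k)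
    (hε : ∀ a, εC (algebraMap A C a) = ε (θ a)) :
    ∃ (C' : Type u) (_ : CommRing C') (_ : Algebra L C') (ρ : C →+* C') (ε' : C' →+* k),
      (∀ a, ρ (algebraMap A C a) = algebraMap L C' (θ a)) ∧
      (∀ z, z ∈ Submodule.span L (Set.range ρ)) ∧
      (∀ f, ε' (algebraMap L C' f) = ε f) ∧ (∀ z, ε' (ρ z) = εC z) ∧
      (Module.Finite A C → Module.Finite L C') ∧
      (∀ (t : ℕ) (v : Module.Basis (Fin t) A C),
        ∃ v' : Module.Basis (Fin t) L C', ∀ i, ρ (v i) = v' i) ∧
      (∀ (_ : IsDomain A) (_ : IsDomain L) (_ : Module.Finite A C) (r : ℕ) (e : Fin r → C),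
        LinearIndependent A e → ∃ e' : Fin r → C', LinearIndependent L e') := by
  let _ : Algebra A L := θ.toAlgebra
  let _ : Algebra A k := (ε.comp θ).toAlgebra
  let f : L →ₐ[A] k := { ε with commutes' := fun a => rfl }
  let g : C →ₐ[A] k := { εC with commutes' := fun a => hε a }
  refine ⟨L ⊗[A] C, inferInstance, inferInstance,
    (Algebra.TensorProduct.includeRight : C →ₐ[A] L ⊗[A] C).toRingHom,
    (Algebra.TensorProduct.productMap f g).toRingHom, ?_, ?_, ?_, ?_, ?_, ?_, ?_⟩
  · intro a
    change (Algebra.TensorProduct.includeRight : C →ₐ[A] L ⊗[A] C) (algebraMap A C a) = _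
    rw [AlgHom.commutes, IsScalarTower.algebraMap_apply A L]
    rfl
  · intro z
    induction z using TensorProduct.induction_on with
    | zero => exact Submodule.zero_mem _
    | tmul x y =>
      have : x ⊗ₜ[A] y = x • ((1 : L) ⊗ₜ[A] y) := by
        rw [TensorProduct.smul_tmul', smul_eq_mul, mul_one]
      rw [this]
      exact Submodule.smul_mem _ _ (Submodule.subset_span ⟨y, rfl⟩)
    | add x y hx hy => exact Submodule.add_mem _ hx hy
  · intro x
    exact Algebra.TensorProduct.productMap_left_apply f g x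
  · intro x
    exact Algebra.TensorProduct.productMap_right_apply f g x
  · intro h
    infer_instance
  · intro t v
    exact ⟨Algebra.TensorProduct.basis L v,
      fun i => (Algebra.TensorProduct.basis_apply (A := L) v i).symm⟩
  · intro _ _ _ r e he
    exact rank_base_change e he

theorem specialize2 {p : ℕ} (hp : p.Prime) {k : Type u} [Field k] [_root_.CharP k p]
    {d : ℕ} (hd : 0 < d) {B : Type u} [CommRing B] [IsDomain B]
    (x : Fin d → B) (θ : B →+* MvPowerSeries (Fin d) k) (hθ : ∀ i, θ (x i) = X i)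
    {E S : Type u} [CommRing E] [CommRing S] [Algebra B E] [Algebra E S] [Module.Finite B E]
    {t : ℕ} (v : Module.Basis (Fin t) E S)
    {r : ℕ} (e : Fin r → E) (he : LinearIndependent B e)
    (J : Ideal E) (hJ : ∀ z : E, ∃ b : B, z - algebraMap B E b ∈ J)
    (hJx : ∀ i, algebraMap B E (x i) ∈ J)
    (εE : E →+* k) (hεE : ∀ b, εE (algebraMap B E b) = constantCoeff (θ b))
    (hεJ : ∀ z ∈ J, εE z = 0)
    {s : ℕ} (hJs : J ^ (s + 1) ≤
      Ideal.span (Set.range fun i => algebraMap B E (x i)) * J ^ s)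
    (n : Ideal S) (hn : ∀ z : S, ∃ b : B, z - algebraMap E S (algebraMap B E b) ∈ n)
    (hJn : J.map (algebraMap E S) ≤ n)
    (εS : S →+* k) (hεS : ∀ z : E, εS (algebraMap E S z) = εE z) (hεn : ∀ z ∈ n, εS z = 0)
    {M : ℕ} (hnM : n ^ M ≤
      Ideal.span (Set.range fun i => algebraMap E S (algebraMap B E (x i))))
    (y : Fin d → S) (hy : ∀ i, y i ∈ n) {j c : ℕ} (hj : 0 < j)
    (hc : Ideal.span (Set.range fun i => algebraMap E S (algebraMap B E (x i))) ^ c ≤
      Ideal.span (Set.range y) ^ j)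
    {l : ℕ} (b : Fin l → S)
    (hb1 : ∀ z : S, ∃ β : Fin l → B,
      z - ∑ q, algebraMap E S (algebraMap B E (β q)) * b q ∈ Ideal.span (Set.range y) ^ j)
    (hb2 : ∀ i q, ∃ β : Fin l → B,
      (∀ q', θ (β q') - C (constantCoeff (θ (β q'))) ∈ mm (Fin d) k ^ c) ∧
      algebraMap E S (algebraMap B E (x i)) * b q -
        ∑ q', algebraMap E S (algebraMap B E (β q')) * b q' ∈ Ideal.span (Set.range y) ^ j) :
    cork v εE y * r * tc d j ≤ l := by
  obtain ⟨R', _, _, ρE, εR, hρE, hspanE, hεR1, hεR2, hfinE, -, hrankE⟩ :=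
    exists_base_change2 θ (constantCoeff (σ := Fin d) (R := k)) εE hεE
  obtain ⟨S', _, _, ρS, εS', hρS, hspanS, hεS1, hεS2, -, hfreeS, -⟩ :=
    exists_base_change2 ρE εR εS (fun z => by rw [hεS, hεR2])
  have hfinE' := hfinE inferInstance
  obtain ⟨v', hv'⟩ := hfreeS t v
  have hfree : Module.Free R' S' := Module.Free.of_basis v'
  have hfin : Module.Finite R' S' := Module.Finite.of_basis v'
  let _ : Algebra (MvPowerSeries (Fin d) k) S' :=
    ((algebraMap R' S').comp (algebraMap (MvPowerSeries (Fin d) k) R')).toAlgebra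
  have htower : IsScalarTower (MvPowerSeries (Fin d) k) R' S' :=
    IsScalarTower.of_algebraMap_eq fun _ => rfl
  have hfinS : Module.Finite (MvPowerSeries (Fin d) k) S' := Module.Finite.trans R' S'
  have hρS' : ∀ β : B, algebraMap (MvPowerSeries (Fin d) k) S' (θ β) =
      ρS (algebraMap E S (algebraMap B E β)) := by
    intro β
    rw [IsScalarTower.algebraMap_apply (MvPowerSeries (Fin d) k) R' S', ← hρE, ← hρS]
  have hXE : ∀ i, algebraMap (MvPowerSeries (Fin d) k) R' (X i) = ρE (algebraMap B E (x i)) := by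
    intro i
    rw [hρE, hθ]
  have hXS : ∀ i, algebraMap (MvPowerSeries (Fin d) k) S' (X i) =
      ρS (algebraMap E S (algebraMap B E (x i))) := by
    intro i
    rw [← hρS', hθ]
  -- the span of `S` over the power series ring
  have hspanLS : ∀ z : S', z ∈ Submodule.span (MvPowerSeries (Fin d) k) (Set.range ρS) := by
    have h1 : ∀ (c : R') (w : S), c • ρS w ∈
        Submodule.span (MvPowerSeries (Fin d) k) (Set.range ρS) := by
      intro c w
      induction hspanE c using Submodule.span_induction with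
      | mem c hc =>
        obtain ⟨c, rfl⟩ := hc
        rw [Algebra.smul_def, ← hρS, ← map_mul]
        exact Submodule.subset_span ⟨_, rfl⟩
      | zero => rw [zero_smul]; exact Submodule.zero_mem _
      | add c c' _ _ h h' => rw [add_smul]; exact Submodule.add_mem _ h h'
      | smul a c _ h => rw [smul_assoc]; exact Submodule.smul_mem _ _ h
    have h2 : ∀ (c : R') (w : S'), w ∈ Submodule.span (MvPowerSeries (Fin d) k) (Set.range ρS) →
        c • w ∈ Submodule.span (MvPowerSeries (Fin d) k) (Set.range ρS) := by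
      intro c w hw
      induction hw using Submodule.span_induction with
      | mem w hw =>
        obtain ⟨w, rfl⟩ := hw
        exact h1 c w
      | zero => rw [smul_zero]; exact Submodule.zero_mem _
      | add w w' _ _ h h' => rw [smul_add]; exact Submodule.add_mem _ h h'
      | smul a w _ h => rw [smul_comm]; exact Submodule.smul_mem _ _ h
    intro z
    induction hspanS z using Submodule.span_induction with
    | mem w hw => exact Submodule.subset_span hw
    | zero => exact Submodule.zero_mem _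
    | add w w' _ _ h h' => exact Submodule.add_mem _ h h'
    | smul a w _ h => exact h2 a w h
  -- the local ring `R'`
  have hspX : (Ideal.span (Set.range fun i => algebraMap B E (x i))).map ρE =
      Ideal.span (Set.range fun i => algebraMap (MvPowerSeries (Fin d) k) R' (X i)) := by
    rw [Ideal.map_span, ← Set.range_comp]
    congr 2
    funext i
    exact (hXE i).symm
  have hmR : ∀ z : R', ∃ f : MvPowerSeries (Fin d) k, z - algebraMap _ R' f ∈ J.map ρE := by
    intro z
    induction hspanE z using Submodule.span_induction with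
    | mem z hz =>
      obtain ⟨z, rfl⟩ := hz
      obtain ⟨β, hβ⟩ := hJ z
      refine ⟨θ β, ?_⟩
      rw [← hρE, ← map_sub]
      exact Ideal.mem_map_of_mem _ hβ
    | zero => exact ⟨0, by rw [map_zero, sub_zero]; exact Ideal.zero_mem _⟩
    | add z z' _ _ h h' =>
      obtain ⟨f, hf⟩ := h
      obtain ⟨f', hf'⟩ := h'
      refine ⟨f + f', ?_⟩
      rw [map_add, add_sub_add_comm]
      exact Ideal.add_mem _ hf hf'
    | smul a z _ h =>
      obtain ⟨f, hf⟩ := h
      refine ⟨a * f, ?_⟩
      rw [map_mul, Algebra.smul_def, ← mul_sub]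
      exact Ideal.mul_mem_left _ _ hf
  have hXmR : ∀ i, algebraMap (MvPowerSeries (Fin d) k) R' (X i) ∈ J.map ρE := by
    intro i
    rw [hXE]
    exact Ideal.mem_map_of_mem _ (hJx i)
  have hmRs : (J.map ρE) ^ (s + 1) ≤
      Ideal.span (Set.range fun i => algebraMap (MvPowerSeries (Fin d) k) R' (X i)) *
        (J.map ρE) ^ s := by
    rw [← hspX, ← Ideal.map_pow, ← Ideal.map_pow, ← Ideal.map_mul]
    exact Ideal.map_mono hJs
  obtain ⟨hkerR, hlocR, hmaxR⟩ := local_of_data (J.map ρE) εR hεR1
    (fun z hz => (Ideal.map_le_iff_le_comap (K := RingHom.ker εR)).mpr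
      (fun w hw => by
        rw [Ideal.mem_comap, RingHom.mem_ker, hεR2]
        exact hεJ w hw) hz) hmR hXmR (hmRs.trans Ideal.mul_le_left)
  -- the local ring `S'`
  have hspXS : (Ideal.span (Set.range fun i => algebraMap E S (algebraMap B E (x i)))).map ρS =
      Ideal.span (Set.range fun i => algebraMap (MvPowerSeries (Fin d) k) S' (X i)) := by
    rw [Ideal.map_span, ← Set.range_comp]
    congr 2
    funext i
    exact (hXS i).symm
  have hmS : ∀ z : S', ∃ f : MvPowerSeries (Fin d) k, z - algebraMap _ S' f ∈ n.map ρS := by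
    intro z
    induction hspanLS z using Submodule.span_induction with
    | mem z hz =>
      obtain ⟨z, rfl⟩ := hz
      obtain ⟨β, hβ⟩ := hn z
      refine ⟨θ β, ?_⟩
      rw [hρS', ← map_sub]
      exact Ideal.mem_map_of_mem _ hβ
    | zero => exact ⟨0, by rw [map_zero, sub_zero]; exact Ideal.zero_mem _⟩
    | add z z' _ _ h h' =>
      obtain ⟨f, hf⟩ := h
      obtain ⟨f', hf'⟩ := h'
      refine ⟨f + f', ?_⟩
      rw [map_add, add_sub_add_comm]
      exact Ideal.add_mem _ hf hf'
    | smul a z _ h =>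
      obtain ⟨f, hf⟩ := h
      refine ⟨a * f, ?_⟩
      rw [map_mul, Algebra.smul_def, ← mul_sub]
      exact Ideal.mul_mem_left _ _ hf
  have hXmS : ∀ i, algebraMap (MvPowerSeries (Fin d) k) S' (X i) ∈ n.map ρS := by
    intro i
    rw [hXS]
    exact Ideal.mem_map_of_mem _ (hJn (Ideal.mem_map_of_mem _ (hJx i)))
  have hmSM : (n.map ρS) ^ M ≤
      Ideal.span (Set.range fun i => algebraMap (MvPowerSeries (Fin d) k) S' (X i)) := by
    rw [← hspXS, ← Ideal.map_pow]
    exact Ideal.map_mono hnM
  obtain ⟨hkerS, hlocS, hmaxS⟩ := local_of_data (n.map ρS) εS'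
    (fun f => by rw [IsScalarTower.algebraMap_apply (MvPowerSeries (Fin d) k) R' S', hεS1, hεR1])
    (fun z hz => (Ideal.map_le_iff_le_comap (K := RingHom.ker εS')).mpr
      (fun w hw => by
        rw [Ideal.mem_comap, RingHom.mem_ker, hεS2]
        exact hεn w hw) hz) hmS hXmS hmSM
  have hnoethR : IsNoetherianRing R' := IsNoetherianRing.of_finite (MvPowerSeries (Fin d) k) R'
  have hnoethS : IsNoetherianRing S' := IsNoetherianRing.of_finite (MvPowerSeries (Fin d) k) S'
  have hlocal : IsLocalHom (algebraMap R' S') := by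
    refine ⟨fun z hz => ?_⟩
    by_contra hz'
    have h1 : z ∈ J.map ρE := by
      rw [← hmaxR]
      exact (mem_maximalIdeal z).mpr hz'
    rw [hkerR, RingHom.mem_ker, ← hεS1] at h1
    exact (hz.map εS').ne_zero h1
  have hchar : _root_.CharP R' p :=
    charP_of_injective_ringHom (f := (algebraMap (MvPowerSeries (Fin d) k) R').comp C)
      (RingHom.injective _) p
  obtain ⟨dR, hdR, -⟩ := exists_dim_le
    (fun i => algebraMap (MvPowerSeries (Fin d) k) R' (X i)) (fun i => by rw [hmaxR]; exact hXmR i)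
    (M := s + 1) (by rw [hmaxR]; exact hmRs.trans Ideal.mul_le_left)
  obtain ⟨dS, hdS, hdSle⟩ := exists_dim_le
    (fun i => algebraMap (MvPowerSeries (Fin d) k) S' (X i)) (fun i => by rw [hmaxS]; exact hXmS i)
    (M := M) (by rw [hmaxS]; exact hmSM)
  obtain ⟨e', he'⟩ := hrankE inferInstance (NoZeroDivisors.to_isDomain _) inferInstance r e he
  obtain ⟨a, ha⟩ := lower_of_data (s := s) (by rw [hmaxR]; exact hmR)
    (by rw [hmaxR]; exact hXmR) (by rw [hmaxR]; exact hmRs) e' he'
  have hspy : (Ideal.span (Set.range y)).map ρS = Ideal.span (Set.range fun i => ρS (y i)) := by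
    rw [Ideal.map_span, ← Set.range_comp]
    rfl
  have hcS : Ideal.span (Set.range fun i => algebraMap (MvPowerSeries (Fin d) k) S' (X i)) ^ c ≤
      Ideal.span (Set.range fun i => ρS (y i)) ^ j := by
    rw [← hspXS, ← hspy, ← Ideal.map_pow, ← Ideal.map_pow]
    exact Ideal.map_mono hc
  have hmemI : ∀ z ∈ Ideal.span (Set.range y) ^ j,
      ρS z ∈ Ideal.span (Set.range fun i => ρS (y i)) ^ j := by
    intro z hz
    rw [← hspy, ← Ideal.map_pow]
    exact Ideal.mem_map_of_mem _ hz
  have hck : (cork v εE y : ℕ∞) = ell ((maximalIdeal R').map (algebraMap R' S') ⊔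
      Ideal.span (Set.range fun i => ρS (y i))) := by
    rw [cork_congr v εE y v' εR (fun i => ρS (y i)) ρE ρS hρS hv' (fun _ => rfl) hεR2]
    refine cork_eq_ell v' εR _ ((algebraMap (MvPowerSeries (Fin d) k) R').comp C)
      (fun a => by rw [RingHom.comp_apply, hεR1, constantCoeff_C]) _
      (fun z => by rw [hmaxR, hkerR, RingHom.mem_ker]) (fun z => ⟨εS' z, ?_⟩)
    rw [hmaxS, hkerS, RingHom.mem_ker, map_sub, hεS1, RingHom.comp_apply, hεR1, constantCoeff_C,
      sub_self]
  refine final_ineq2 hp (R := R') (S := S') hd hdR hdS hdSle hj ha (fun i => ρS (y i))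
    (fun i => by rw [hmaxS]; exact Ideal.mem_map_of_mem _ (hy i)) hck.symm ?_
  refine upper_of_data _ (fun q => ρS (b q)) hcS ?_ ?_
  · intro z
    induction hspanLS z using Submodule.span_induction with
    | mem z hz =>
      obtain ⟨z, rfl⟩ := hz
      obtain ⟨β, hβ⟩ := hb1 z
      refine ⟨fun q => θ (β q), ?_⟩
      have := hmemI _ hβ
      rw [map_sub, map_sum] at this
      simpa only [map_mul, ← hρS'] using this
    | zero => exact ⟨0, by simp⟩
    | add z z' _ _ h h' =>
      obtain ⟨f, hf⟩ := h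
      obtain ⟨f', hf'⟩ := h'
      refine ⟨f + f', ?_⟩
      have := Ideal.add_mem _ hf hf'
      rw [← add_sub_add_comm, ← Finset.sum_add_distrib] at this
      simpa only [Pi.add_apply, map_add, add_mul] using this
    | smul a z _ h =>
      obtain ⟨f, hf⟩ := h
      refine ⟨fun q => a * f q, ?_⟩
      have := Ideal.mul_mem_left _ (algebraMap _ S' a) hf
      rw [mul_sub, Finset.mul_sum, ← Algebra.smul_def] at this
      simpa only [map_mul, mul_assoc] using this
  · intro i q
    obtain ⟨β, hβ, hβ'⟩ := hb2 i q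
    refine ⟨fun q' => constantCoeff (θ (β q')), ?_⟩
    have h1 := hmemI _ hβ'
    rw [map_sub, map_sum] at h1
    simp only [map_mul, ← hρS'] at h1
    rw [hθ] at h1
    have h2 : ∑ q', algebraMap _ S' (θ (β q') - C (constantCoeff (θ (β q')))) * ρS (b q') ∈
        Ideal.span (Set.range fun i => ρS (y i)) ^ j := by
      refine Ideal.sum_mem _ fun q' _ => Ideal.mul_mem_right _ _ (hcS ?_)
      rw [← map_mm_pow]
      exact Ideal.mem_map_of_mem _ (hβ q')
    have h3 := Ideal.add_mem _ h1 h2
    simp only [map_sub, sub_mul, Finset.sum_sub_distrib] at h3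
    rwa [sub_add_sub_cancel] at h3

theorem le_of_model2 {K : Type u} [Field K] [CharZero K] {d r j c l : ℕ}
    (hd : 0 < d) (hj : 0 < j) (Mo : Model K d r j c l) :
    corkM Mo * r * tc d j ≤ l := by
  obtain ⟨T, hT, E, S, t, v, e, he, J, hJ, hJx, εE, hεE, hεJ, s, hJs, n, hn, hJn, εS, hεS, hεn,
    M, hnM, y, hy, hc, b, hb1, hb2⟩ := Mo
  change cork v εE y * r * tc d j ≤ l
  obtain ⟨s0, ψ, hψ, hψX⟩ := approx_ringHom T (max c 1)
  have hconst : ∀ b : Subring.closure (T : Set (MvPowerSeries (Fin d) K)),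
      constantCoeff (b : MvPowerSeries (Fin d) K) =
        ((constantCoeff (ψ b) : Subring.closure (s0 : Set K)) : K) := by
    intro b
    have h1 := hψ b
    have h2 : mm (Fin d) K ^ (max c 1) ≤ mm (Fin d) K :=
      Ideal.pow_le_self (by omega)
    have h3 := mem_mm_iff.mp (h2 h1)
    rw [map_sub, sub_eq_zero, MvPowerSeries.constantCoeff_map] at h3
    exact h3.symm
  have := finiteType_closure s0
  obtain ⟨𝔐, h𝔐, p, hp, hchar, hfinq⟩ := exists_charP_quotient (D := Subring.closure (s0 : Set K))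
  obtain ⟨k, _, _, _, π, -⟩ : ∃ (k : Type u) (_ : Field k) (_ : _root_.CharP k p) (_ : Finite k)
      (_ : Subring.closure (s0 : Set K) →+* k), True :=
    ⟨Subring.closure (s0 : Set K) ⧸ 𝔐, Ideal.Quotient.field 𝔐, hchar, hfinq,
      Ideal.Quotient.mk 𝔐, trivial⟩
  clear hchar hfinq
  generalize hD : Subring.closure (s0 : Set K) = D at *
  let θ : Subring.closure (T : Set (MvPowerSeries (Fin d) K)) →+* MvPowerSeries (Fin d) k :=
    (MvPowerSeries.map π).comp ψ
  have hεEmem : ∀ z, εE z ∈ D := by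
    intro z
    obtain ⟨b, hb⟩ := hJ z
    have h1 := hεJ _ hb
    rw [map_sub, sub_eq_zero] at h1
    rw [h1, hεE, hconst]
    exact Subtype.coe_prop _
  have hεSmem : ∀ z, εS z ∈ D := by
    intro z
    obtain ⟨b, hb⟩ := hn z
    have h1 := hεn _ hb
    rw [map_sub, sub_eq_zero] at h1
    rw [h1, hεS]
    exact hεEmem _
  have hdom : IsDomain (MvPowerSeries (Fin d) K) := NoZeroDivisors.to_isDomain _
  have hS1 : ∀ z : E, (π.comp (εS.codRestrict _ hεSmem)) (algebraMap E S z) =
      (π.comp (εE.codRestrict _ hεEmem)) z := by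
    intro z
    simp only [RingHom.comp_apply]
    congr 1
    exact Subtype.ext (hεS z)
  have hS2 : ∀ z ∈ n, (π.comp (εS.codRestrict _ hεSmem)) z = 0 := by
    intro z hz
    have : εS.codRestrict _ hεSmem z = 0 := Subtype.ext (hεn z hz)
    rw [RingHom.comp_apply, this, map_zero]
  have hE2 : ∀ z ∈ J, (π.comp (εE.codRestrict _ hεEmem)) z = 0 := by
    intro z hz
    have : εE.codRestrict _ hεEmem z = 0 := Subtype.ext (hεJ z hz)
    rw [RingHom.comp_apply, this, map_zero]
  have hE1 : ∀ b, (π.comp (εE.codRestrict _ hεEmem)) (algebraMap _ E b) =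
      constantCoeff (θ b) := by
    intro b
    simp only [θ, RingHom.comp_apply, MvPowerSeries.constantCoeff_map]
    congr 1
    apply Subtype.ext
    change εE _ = _
    rw [hεE, hconst]
  have hθX : ∀ i, θ ⟨X i, hT i⟩ = X i := by
    intro i
    simp only [θ, RingHom.comp_apply, hψX, MvPowerSeries.map_X]
  have key := @specialize2 p hp k _ _ d hd
    (Subring.closure (T : Set (MvPowerSeries (Fin d) K))) _ _ (fun i => ⟨X i, hT i⟩) θ hθX
    E S _ _ _ _ _ t v r e he J hJ hJx (π.comp (εE.codRestrict _ hεEmem)) hE1 hE2 s hJs n hn hJn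
    (π.comp (εS.codRestrict _ hεSmem)) hS1 hS2 M hnM y hy j c hj hc l b hb1
  have hck : cork v εE y ≤ cork v (π.comp (εE.codRestrict _ hεEmem)) y :=
    corank_specialize D π
      (fun (q : Fin d × Fin t) l' => εE.codRestrict _ hεEmem (v.repr (y q.1 * v q.2) l'))
  refine le_trans (Nat.mul_le_mul_right _ (Nat.mul_le_mul_right _ hck)) (key ?_)
  · intro i q
    obtain ⟨β, hβ, hβ'⟩ := hb2 i q
    refine ⟨β, fun q' => ?_, hβ'⟩
    obtain ⟨a, ha⟩ := hβ q'
    rw [mem_mm_pow_iff]
    intro D hD
    by_cases hD0 : D = 0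
    · subst hD0
      rw [map_sub, coeff_zero_eq_constantCoeff_apply, coeff_zero_eq_constantCoeff_apply,
        constantCoeff_C, sub_self]
    · classical
      have h1 := hψ (β q')
      rw [mem_mm_pow_iff] at h1
      have h2 := h1 D (lt_of_lt_of_le hD (le_max_left _ _))
      rw [map_sub, ha, coeff_C, if_neg hD0, sub_zero, coeff_map] at h2
      have h3 : coeff D (ψ (β q')) = 0 := Subtype.ext h2
      rw [map_sub, coeff_C, if_neg hD0, sub_zero]
      simp only [θ, RingHom.comp_apply, coeff_map, h3, map_zero]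

/-- Complete rings containing the rationals. -/
theorem core_zero {R S : Type u}
    [CommRing R] [IsLocalRing R] [IsNoetherianRing R] [IsAdicComplete (maximalIdeal R) R]
    [CommRing S] [IsLocalRing S] [IsNoetherianRing S] [IsAdicComplete (maximalIdeal S) S]
    [Algebra R S] [IsLocalHom (algebraMap R S)] [Module.Flat R S] [Algebra ℚ R]
    {d : ℕ} (hd : 0 < d) (hR : ringKrullDim R = d) (hS : ringKrullDim S = d) :
    Core R S d := by
  classical
  intro y hy hyl eR t0 heR ht0 N
  have hmS : ∀ z ∈ maximalIdeal R, algebraMap R S z ∈ maximalIdeal S := by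
    intro z hz
    exact (mem_maximalIdeal _).mpr fun h =>
      (mem_maximalIdeal _).mp hz (isUnit_of_map_unit (algebraMap R S) z h)
  have hchR : CharZero (ResidueField R) := algebraRat.charZero _
  have hchS : CharZero (ResidueField S) :=
    charZero_of_injective_algebraMap (R := ResidueField R) (RingHom.injective _)
  have hinfR : Infinite (ResidueField R) := inferInstance
  have hinfS : Infinite (ResidueField S) := inferInstance
  obtain ⟨σR, σS, hσR, hσS, hRS⟩ := exists_coefficient_fields (R := R) (S := S)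
  obtain ⟨x, hx, s, hs⟩ := exists_reduction_max (A := R) d hR
  obtain ⟨φ, hφC, hφX⟩ := exists_powerSeries_hom (maximalIdeal S) σS
    (fun i => algebraMap R S (x i)) (fun i => hmS _ (hx i))
  let _ : Algebra (MvPowerSeries (Fin d) (ResidueField S)) S := φ.toAlgebra
  have hkS : ∀ z : S, ∃ a : ResidueField S, z - σS a ∈ maximalIdeal S := by
    intro z
    refine ⟨residue S z, ?_⟩
    rw [← residue_eq_zero_iff, map_sub, hσS, sub_self]
  have hkR : ∀ z : R, ∃ a : ResidueField R, z - σR a ∈ maximalIdeal R := by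
    intro z
    refine ⟨residue R z, ?_⟩
    rw [← residue_eq_zero_iff, map_sub, hσR, sub_self]
  have hC : ∀ a, algebraMap (MvPowerSeries (Fin d) (ResidueField S)) S (C a) = σS a := hφC
  have hX : ∀ i, algebraMap (MvPowerSeries (Fin d) (ResidueField S)) S (X i) =
      algebraMap R S (x i) := hφX
  -- the closed fibre
  obtain ⟨M0, hM0⟩ := exists_pow_le_of_ell_ne_top
    (ell_fibre_ne_top (R := R) (S := S) (by rw [hR, hS]))
  have hxspan : (Ideal.span (Set.range x)).map (algebraMap R S) =
      Ideal.span (Set.range fun i =>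
        algebraMap (MvPowerSeries (Fin d) (ResidueField S)) S (X i)) := by
    rw [Ideal.map_span, ← Set.range_comp]
    congr 2
    funext i
    exact (hX i).symm
  have hM : maximalIdeal S ^ (M0 * (s + 1)) ≤ Ideal.span (Set.range fun i =>
      algebraMap (MvPowerSeries (Fin d) (ResidueField S)) S (X i)) := by
    rw [pow_mul, ← hxspan]
    refine (Ideal.pow_right_mono hM0 _).trans ?_
    rw [← Ideal.map_pow]
    exact Ideal.map_mono (hs.trans Ideal.mul_le_left)
  have hfin : Module.Finite (MvPowerSeries (Fin d) (ResidueField S)) S :=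
    finite_over_powerSeries (by simpa only [hC] using hkS)
      (fun i => by rw [hX]; exact hmS _ (hx i)) hM
  obtain ⟨E, t, v, J, hfinE, hJ, hJ1, hJx, hJs, hJmap, hlen⟩ :=
    exists_free_model σR σS (ResidueField.map (algebraMap R S)) hRS hkR hkS hC x hx hX hs
  have hdom : IsDomain (MvPowerSeries (Fin d) (ResidueField S)) := NoZeroDivisors.to_isDomain _
  obtain ⟨r, ⟨e, he⟩, hr⟩ := exists_max_linearIndependent
    (L := MvPowerSeries (Fin d) (ResidueField S)) (M := E)
  obtain ⟨B, hB⟩ := upper_growth hd hr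
  -- upper bound
  have h1 : ∀ N : ℕ, ell (maximalIdeal R ^ N) ≤ (r : ℕ∞) * (tc d N : ℕ∞) +
      (B : ℕ∞) * ((N : ℕ∞) + 1) ^ (d - 1) := by
    intro N
    refine (hlen N).trans (le_trans ?_ (hB N))
    refine length_quot_pow_le _ _ ?_ N
    rw [mm, Ideal.map_span, Ideal.span_le]
    rintro _ ⟨_, ⟨i, rfl⟩, rfl⟩
    exact hJx i
  have her : eR ≤ r := mult_le_of_growth hd h1 heR
  rcases Nat.eq_zero_or_pos N with rfl | hN
  · have : tc d 0 = 0 := by
      have : tri (Fin d) 0 = ∅ := by ext u; simp [mem_tri]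
      rw [tc, this, Finset.card_empty]
    rw [this]
    simp
  -- lower bound
  have hne : ell (Ideal.span (Set.range y) ^ N) ≠ ⊤ := ell_pow_ne_top hyl N
  obtain ⟨c0, hle⟩ := exists_pow_le_of_ell_ne_top hne
  obtain ⟨m, hm⟩ := ENat.ne_top_iff_exists.mp hne
  obtain ⟨l, b, hlm, hb⟩ := exists_span_family σS hkS (Ideal.span (Set.range y) ^ N) hm.symm
  obtain ⟨Mo, ε, hεJ, hεC, hMo⟩ := exists_model2 (K := ResidueField S) (E := E) (S := S) v e he J hJ hJ1 hJx hJs
    (maximalIdeal S) (by
      intro z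
      obtain ⟨a, ha⟩ := hkS z
      refine ⟨a, ?_⟩
      rw [← hC] at ha
      exact ha)
    (fun h => (Ideal.ne_top_iff_one _).mp (maximalIdeal.isMaximal S).ne_top h)
    (by
      rw [hJmap, Ideal.map_le_iff_le_comap]
      exact hmS) (M := M0 * (s + 1)) hM y hy (j := N) (c := c0)
    ((Ideal.pow_right_mono (by
      rw [Ideal.span_le]
      rintro _ ⟨i, rfl⟩
      change algebraMap (MvPowerSeries (Fin d) (ResidueField S)) S (X i) ∈ _
      rw [hX]
      exact hmS _ (hx i)) _).trans hle) b
    (by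
      intro z
      obtain ⟨a, ha⟩ := hb z
      refine ⟨a, ?_⟩
      simp only [← hC] at ha
      exact ha)
  have h3 := le_of_model2 hd hN Mo
  have h4 : (cork v ε y : ℕ∞) = t0 := by
    rw [← ht0, ← hJmap]
    refine cork_eq_ell v ε y
      ((algebraMap (MvPowerSeries (Fin d) (ResidueField S)) E).comp C) hεC J hεJ fun z => ?_
    obtain ⟨a, ha⟩ := hkS z
    refine ⟨a, ?_⟩
    rw [← hC] at ha
    exact ha
  have h5 : cork v ε y = t0 := by exact_mod_cast h4
  rw [hMo, h5] at h3
  have h6 : t0 * eR * tc d N ≤ m :=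
    ((Nat.mul_le_mul_right _ (Nat.mul_le_mul_left _ her)).trans h3).trans hlm
  rw [← hm]
  exact_mod_cast h6

end Vale.Agent.N202
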